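import Mathlib

/-!
Borsuk core lemma: a finite configuration in a metric space in which all non-adjacent pairs
are at the maximal distance `D` and in which cliques of the adjacency relation have at most
five elements cannot be covered by `k` sets of smaller diameter when it has more than `5 * k`
points.
-/

namespace Vale.Agent.Lib.P052

/-- More than five indices cannot be pairwise adjacent, so two of them are non-adjacent. -/
theorem exists_nonadj_of_card {ι : Type*} [DecidableEq ι] (adj : ι → ι → Prop)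
    (hclique : ∀ S : Finset ι, (∀ i ∈ S, ∀ j ∈ S, i ≠ j → adj i j) → S.card ≤ 5)
    (S : Finset ι) (hS : 5 < S.card) : ∃ i ∈ S, ∃ j ∈ S, i ≠ j ∧ ¬ adj i j := by
  by_contra hcon
  have h : ∀ i ∈ S, ∀ j ∈ S, i ≠ j → adj i j := by
    intro i hi j hj hij
    by_contra hadj
    exact hcon ⟨i, hi, j, hj, hij, hadj⟩
  have := hclique S h
  omega

theorem borsuk_core {E : Type*} [MetricSpace E] {ι : Type*} [Fintype ι] [DecidableEq ι]
    (x : ι → E) (adj : ι → ι → Prop) (D : ℝ) (k : ℕ) (hk : 1 ≤ k) (hDpos : 0 < D)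
    (hD : ∀ i j, dist (x i) (x j) ≤ D)
    (hfar : ∀ i j, i ≠ j → ¬ adj i j → dist (x i) (x j) = D)
    (hclique : ∀ S : Finset ι, (∀ i ∈ S, ∀ j ∈ S, i ≠ j → adj i j) → S.card ≤ 5)
    (hcard : 5 * k < Fintype.card ι) :
    (Set.range x).Finite ∧ Metric.diam (Set.range x) = D ∧
      ∀ P : Fin k → Set E, (⋃ i, P i) = Set.range x →
        ∃ i, Metric.diam (Set.range x) ≤ Metric.diam (P i) := by
  classical
  have hfin : (Set.range x).Finite := Set.finite_range x
  have hbdd : Bornology.IsBounded (Set.range x) := hfin.isBounded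
  have hle : Metric.diam (Set.range x) ≤ D := by
    refine Metric.diam_le_of_forall_dist_le hDpos.le ?_
    rintro _ ⟨i, rfl⟩ _ ⟨j, rfl⟩
    exact hD i j
  have hdiam : Metric.diam (Set.range x) = D := by
    refine le_antisymm hle ?_
    have h5 : 5 < (Finset.univ : Finset ι).card := by
      rw [Finset.card_univ]
      omega
    obtain ⟨i, -, j, -, hij, hadj⟩ := exists_nonadj_of_card adj hclique Finset.univ h5
    rw [← hfar i j hij hadj]
    exact Metric.dist_le_diam_of_mem hbdd ⟨i, rfl⟩ ⟨j, rfl⟩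
  refine ⟨hfin, hdiam, fun P hP => ?_⟩
  have hmem : ∀ i : ι, ∃ a : Fin k, x i ∈ P a := by
    intro i
    have hi : x i ∈ ⋃ a, P a := by
      rw [hP]
      exact ⟨i, rfl⟩
    exact Set.mem_iUnion.mp hi
  choose c hc using hmem
  have hpig : ∃ a : Fin k, 5 < (Finset.univ.filter fun i => c i = a).card := by
    refine Fintype.exists_lt_card_fiber_of_mul_lt_card c ?_
    rw [Fintype.card_fin]
    omega
  obtain ⟨a, ha⟩ := hpig
  obtain ⟨i, hi, j, hj, hij, hadj⟩ := exists_nonadj_of_card adj hclique _ ha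
  refine ⟨a, ?_⟩
  rw [hdiam, ← hfar i j hij hadj]
  have hsub : P a ⊆ Set.range x := by
    rw [← hP]
    exact Set.subset_iUnion P a
  have hi' : x i ∈ P a := by
    have h1 := (Finset.mem_filter.mp hi).2
    rw [← h1]
    exact hc i
  have hj' : x j ∈ P a := by
    have h1 := (Finset.mem_filter.mp hj).2
    rw [← h1]
    exact hc j
  exact Metric.dist_le_diam_of_mem (hbdd.subset hsub) hi' hj'

/-- The dimension-63 shape: a configuration of more than 320 points of Euclidean 63-space
with the above properties is a finite set of positive diameter that is not the union of 64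
sets of smaller diameter. -/
theorem borsuk_fails_of_config {ι : Type*} [Fintype ι] [DecidableEq ι]
    (x : ι → EuclideanSpace ℝ (Fin 63)) (adj : ι → ι → Prop) (D : ℝ) (hDpos : 0 < D)
    (hD : ∀ i j, dist (x i) (x j) ≤ D)
    (hfar : ∀ i j, i ≠ j → ¬ adj i j → dist (x i) (x j) = D)
    (hclique : ∀ S : Finset ι, (∀ i ∈ S, ∀ j ∈ S, i ≠ j → adj i j) → S.card ≤ 5)
    (hcard : 320 < Fintype.card ι) :
    ∃ Y : Set (EuclideanSpace ℝ (Fin 63)), Y.Finite ∧ 0 < Metric.diam Y ∧
      ∀ P : Fin 64 → Set (EuclideanSpace ℝ (Fin 63)), (⋃ i, P i) = Y →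
        ∃ i, Metric.diam Y ≤ Metric.diam (P i) := by
  obtain ⟨h1, h2, h3⟩ := borsuk_core x adj D 64 (by norm_num) hDpos hD hfar hclique (by omega)
  exact ⟨Set.range x, h1, by rw [h2]; exact hDpos, h3⟩

/-- The same in any dimension `d` with `k = d + 1` parts. -/
theorem borsuk_fails_of_config_dim (d : ℕ) {ι : Type*} [Fintype ι] [DecidableEq ι]
    (x : ι → EuclideanSpace ℝ (Fin d)) (adj : ι → ι → Prop) (D : ℝ) (hDpos : 0 < D)
    (hD : ∀ i j, dist (x i) (x j) ≤ D)
    (hfar : ∀ i j, i ≠ j → ¬ adj i j → dist (x i) (x j) = D)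
    (hclique : ∀ S : Finset ι, (∀ i ∈ S, ∀ j ∈ S, i ≠ j → adj i j) → S.card ≤ 5)
    (hcard : 5 * (d + 1) < Fintype.card ι) :
    ∃ Y : Set (EuclideanSpace ℝ (Fin d)), Y.Finite ∧ 0 < Metric.diam Y ∧
      ∀ P : Fin (d + 1) → Set (EuclideanSpace ℝ (Fin d)), (⋃ i, P i) = Y →
        ∃ i, Metric.diam Y ≤ Metric.diam (P i) := by
  obtain ⟨h1, h2, h3⟩ :=
    borsuk_core x adj D (d + 1) (by omega) hDpos hD hfar hclique hcard
  exact ⟨Set.range x, h1, by rw [h2]; exact hDpos, h3⟩

end Vale.Agent.Lib.P052
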