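import Mathlib

/-!
Isometric copies of low-dimensional configurations: a subspace `W` of `EuclideanSpace ℝ (Fin N)` of
dimension at most `d` embeds linearly and isometrically into `EuclideanSpace ℝ (Fin d)`.
-/

namespace Vale.Agent.Lib.P052

/-- A subspace of `EuclideanSpace ℝ (Fin N)` of dimension at most `d` admits a linear isometric
embedding into `EuclideanSpace ℝ (Fin d)`. -/
theorem exists_linearIsometry_of_finrank_le {N d : ℕ}
    (W : Submodule ℝ (EuclideanSpace ℝ (Fin N))) (hW : Module.finrank ℝ W ≤ d) :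
    Nonempty (W →ₗᵢ[ℝ] EuclideanSpace ℝ (Fin d)) := by
  classical
  set b := stdOrthonormalBasis ℝ W with hb
  set w : Fin (Module.finrank ℝ W) → EuclideanSpace ℝ (Fin d) :=
    fun i => EuclideanSpace.single (Fin.castLE hW i) (1 : ℝ) with hw
  have hworth : Orthonormal ℝ w := by
    have h1 : Orthonormal ℝ (fun j : Fin d => EuclideanSpace.single j (1 : ℝ)) :=
      EuclideanSpace.orthonormal_single
    exact h1.comp (Fin.castLE hW) (Fin.castLE_injective hW)
  set f : W →ₗ[ℝ] EuclideanSpace ℝ (Fin d) := b.toBasis.constr ℝ w with hf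
  have hfb : f ∘ b.toBasis = w := by
    funext i
    simp [hf]
  exact ⟨f.isometryOfOrthonormal (v := b.toBasis) (by rw [OrthonormalBasis.coe_toBasis]; exact b.orthonormal)
    (by rw [hfb]; exact hworth)⟩

/-- A configuration of points lying in a subspace of dimension at most `d` has an isometric copy
in `EuclideanSpace ℝ (Fin d)`. -/
theorem exists_isometric_copy {N d : ℕ} {ι : Type*} (v : ι → EuclideanSpace ℝ (Fin N))
    (W : Submodule ℝ (EuclideanSpace ℝ (Fin N))) (hW : Module.finrank ℝ W ≤ d)
    (hv : ∀ i, v i ∈ W) :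
    ∃ y : ι → EuclideanSpace ℝ (Fin d), ∀ i j, dist (y i) (y j) = dist (v i) (v j) := by
  obtain ⟨f⟩ := exists_linearIsometry_of_finrank_le W hW
  refine ⟨fun i => f ⟨v i, hv i⟩, fun i j => ?_⟩
  rw [f.dist_map]
  rfl

end Vale.Agent.Lib.P052
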