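import Vale.Agent.Lib.P052.Geom
import Vale.Agent.Lib.P052.Core
import Vale.Agent.Lib.P052.Iso

/-!
# Abstract form of the dimension 63 construction

From a strongly regular graph with parameters (416, 100, 36, 20) without 6-cliques, two
hyperplanes of the 65-dimensional row space of `M = 16 I + 4 A - J` containing the points of at
least 320 common vertices, and one further vertex `w`, we build 321 points of Euclidean
63-space that cannot be covered by 64 sets of smaller diameter.  The extra point is a multiple
of the orthogonal projection of the point of `w` onto the 63-dimensional space cut out by the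
two hyperplanes, at the diameter distance from the points of all non-neighbours of `w`.
-/

open Matrix

namespace Vale.Agent.Lib.P052

section assembly

variable {adj : Fin 416 → Fin 416 → Prop} [DecidableRel adj]

theorem norm_sq_vtx (hsymm : ∀ i j, adj i j → adj j i)
    (hmul : gramMat adj * gramMat adj = (96 : ℝ) • gramMat adj) (i : Fin 416) :
    ‖vtx adj i‖ ^ 2 = 1440 := by
  rw [← real_inner_self_eq_norm_sq, inner_vtx hsymm hmul]
  simp [gramMat]
  norm_num

theorem dist_sq_vtx (hsymm : ∀ i j, adj i j → adj j i)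
    (hmul : gramMat adj * gramMat adj = (96 : ℝ) • gramMat adj) (i j : Fin 416) :
    dist (vtx adj i) (vtx adj j) ^ 2 = 2880 - 192 * gramMat adj i j := by
  rw [dist_eq_norm, norm_sub_sq_real, norm_sq_vtx hsymm hmul, norm_sq_vtx hsymm hmul,
    inner_vtx hsymm hmul]
  ring

theorem gramMat_cases (i j : Fin 416) :
    gramMat adj i j = 15 ∨ gramMat adj i j = 3 ∨ gramMat adj i j = -1 := by
  unfold gramMat
  split_ifs
  · left; rfl
  · right; left; rfl
  · right; right; rfl

theorem gramMat_of_ne_of_not_adj {i j : Fin 416} (hij : i ≠ j) (h : ¬ adj i j) :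
    gramMat adj i j = -1 := by
  unfold gramMat
  rw [if_neg hij, if_neg h]

theorem gramMat_of_ne {i j : Fin 416} (hij : i ≠ j) :
    gramMat adj i j = 3 ∨ gramMat adj i j = -1 := by
  unfold gramMat
  rw [if_neg hij]
  split_ifs
  · left; rfl
  · right; rfl

/-- The abstract form of the dimension 63 construction.  Given a strongly regular graph with
parameters (416, 100, 36, 20) without 6-cliques, two coefficient vectors `ca`, `cb` defining
two independent hyperplanes of the 65-dimensional row space of `M = 16 I + 4 A - J`, a set `T`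
of at least 320 vertices whose points lie on both hyperplanes, and one further vertex `w`,
there is a finite subset of Euclidean 63-space that is not a union of 64 sets of smaller
diameter. -/
theorem borsuk63_of_graph (adj : Fin 416 → Fin 416 → Prop) [DecidableRel adj]
    (hsymm : ∀ i j, adj i j → adj j i) (hirr : ∀ i, ¬ adj i i)
    (hsrg : ∀ i j, (Finset.univ.filter (fun k => adj i k ∧ adj k j)).card =
      if i = j then 100 else if adj i j then 36 else 20)
    (hclique : ∀ S : Finset (Fin 416), (∀ i ∈ S, ∀ j ∈ S, i ≠ j → adj i j) → S.card ≤ 5)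
    (ca cb : Fin 416 → ℝ) (T : Finset (Fin 416)) (hT : 320 ≤ T.card)
    (hTa : ∀ v ∈ T, ∑ i, gramMat adj v i * ca i = 0)
    (hTb : ∀ v ∈ T, ∑ i, gramMat adj v i * cb i = 0)
    (w : Fin 416) (hw : w ∉ T)
    (x y : Fin 416)
    (hdet : (∑ i, gramMat adj x i * ca i) * (∑ i, gramMat adj y i * cb i) -
      (∑ i, gramMat adj y i * ca i) * (∑ i, gramMat adj x i * cb i) ≠ 0) :
    ∃ Y : Set (EuclideanSpace ℝ (Fin 63)), Y.Finite ∧ 0 < Metric.diam Y ∧
      ∀ P : Fin 64 → Set (EuclideanSpace ℝ (Fin 63)), (⋃ i, P i) = Y →
        ∃ i, Metric.diam Y ≤ Metric.diam (P i) := by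
  classical
  have hmul := gramMat_mul_self hsymm hirr hsrg
  set W := LinearMap.range (Matrix.toEuclideanLin (projMat adj)) with hW
  have hWrank : Module.finrank ℝ W = 65 := finrank_rowSpace hmul
  set a := rowVec adj ca with ha
  set b := rowVec adj cb with hb
  have haW : a ∈ W := rowVec_mem ca
  have hbW : b ∈ W := rowVec_mem cb
  have hia : ∀ v, inner ℝ (vtx adj v) a = ∑ i, gramMat adj v i * ca i :=
    fun v => inner_vtx_rowVec hmul v ca
  have hib : ∀ v, inner ℝ (vtx adj v) b = ∑ i, gramMat adj v i * cb i :=
    fun v => inner_vtx_rowVec hmul v cb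
  -- independence of the two normals
  have hind : LinearIndependent ℝ ![a, b] := by
    rw [LinearIndependent.pair_iff]
    intro s t hst
    have h1 : s * (∑ i, gramMat adj x i * ca i) + t * (∑ i, gramMat adj x i * cb i) = 0 := by
      have := congrArg (fun z => inner ℝ (vtx adj x) z) hst
      simp only [inner_add_right, inner_smul_right, inner_zero_right] at this
      rw [hia, hib] at this
      exact this
    have h2 : s * (∑ i, gramMat adj y i * ca i) + t * (∑ i, gramMat adj y i * cb i) = 0 := by
      have := congrArg (fun z => inner ℝ (vtx adj y) z) hst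
      simp only [inner_add_right, inner_smul_right, inner_zero_right] at this
      rw [hia, hib] at this
      exact this
    constructor
    · have : s * ((∑ i, gramMat adj x i * ca i) * (∑ i, gramMat adj y i * cb i) -
          (∑ i, gramMat adj y i * ca i) * (∑ i, gramMat adj x i * cb i)) = 0 := by
        linear_combination (∑ i, gramMat adj y i * cb i) * h1 - (∑ i, gramMat adj x i * cb i) * h2
      exact (mul_eq_zero.mp this).resolve_right hdet
    · have : t * ((∑ i, gramMat adj x i * ca i) * (∑ i, gramMat adj y i * cb i) -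
          (∑ i, gramMat adj y i * ca i) * (∑ i, gramMat adj x i * cb i)) = 0 := by
        linear_combination (∑ i, gramMat adj x i * ca i) * h2 - (∑ i, gramMat adj y i * ca i) * h1
      exact (mul_eq_zero.mp this).resolve_right hdet
  set L : Submodule ℝ (EuclideanSpace ℝ (Fin 416)) := W ⊓ (Submodule.span ℝ {a, b})ᗮ with hL
  have hLrank : Module.finrank ℝ L = 63 := by
    have h2 : Module.finrank ℝ L + 2 = 65 := by
      rw [← hWrank]
      exact finrank_inf_orthogonal_pair W a b haW hbW hind
    omega
  have hvL : ∀ v ∈ T, vtx adj v ∈ L := by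
    intro v hv
    refine Submodule.mem_inf.mpr ⟨vtx_mem hsymm v, ?_⟩
    rw [Submodule.mem_orthogonal]
    intro z hz
    obtain ⟨s, t, rfl⟩ := Submodule.mem_span_pair.mp hz
    rw [inner_add_left, inner_smul_left, inner_smul_left, real_inner_comm, hia, hTa v hv,
      real_inner_comm, hib, hTb v hv]
    simp
  -- the extra point
  set q := L.starProjection (vtx adj w) with hq
  have hqL : q ∈ L := Submodule.starProjection_apply_mem L _
  have hqv : ∀ v ∈ T, inner ℝ q (vtx adj v) = 96 * gramMat adj w v := by
    intro v hv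
    have h0 := Submodule.starProjection_inner_eq_zero (K := L) (vtx adj w) (vtx adj v) (hvL v hv)
    rw [inner_sub_left] at h0
    rw [← inner_vtx hsymm hmul w v]
    linarith
  have hTne : T.Nonempty := by
    rw [← Finset.card_pos]
    omega
  set N : ℝ := ‖q‖ ^ 2 with hN
  have hNpos : 0 < N := by
    obtain ⟨v₀, hv₀⟩ := hTne
    have hne : w ≠ v₀ := fun h => hw (h ▸ hv₀)
    have hq0 : q ≠ 0 := by
      intro h0
      have h1 := hqv v₀ hv₀
      rw [h0, inner_zero_left] at h1
      rcases gramMat_of_ne (adj := adj) hne with h | h <;> rw [h] at h1 <;> norm_num at h1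
    have : 0 < ‖q‖ := norm_pos_iff.mpr hq0
    positivity
  set s : ℝ := Real.sqrt (9216 + 1632 * N) with hs
  have hs2 : s ^ 2 = 9216 + 1632 * N := Real.sq_sqrt (by positivity)
  have hs96 : 96 < s := by
    rw [hs, Real.lt_sqrt (by norm_num)]
    nlinarith
  set τ : ℝ := (s - 96) / N with hτ
  have hτpos : 0 < τ := div_pos (by linarith) hNpos
  have hτeq : τ ^ 2 * N + 192 * τ = 1632 := by
    rw [hτ]
    field_simp
    nlinarith
  set p := τ • q with hp
  have hpL : p ∈ L := L.smul_mem τ hqL
  have hpnorm : ‖p‖ ^ 2 = τ ^ 2 * N := by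
    rw [hp, norm_smul, mul_pow, Real.norm_eq_abs, sq_abs]
  have hpdist : ∀ v ∈ T, dist p (vtx adj v) ^ 2 = τ ^ 2 * N - 192 * τ * gramMat adj w v + 1440 := by
    intro v hv
    rw [dist_eq_norm, norm_sub_sq_real, hpnorm, norm_sq_vtx hsymm hmul, hp, inner_smul_left,
      hqv v hv]
    simp only [conj_trivial]
    ring
  set D : ℝ := Real.sqrt 3072 with hD
  have hDpos : 0 < D := Real.sqrt_pos.mpr (by norm_num)
  have hle_of_sq : ∀ d : ℝ, 0 ≤ d → d ^ 2 ≤ 3072 → d ≤ D := by
    intro d hd h
    rw [hD]
    exact Real.le_sqrt_of_sq_le h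
  have heq_of_sq : ∀ d : ℝ, 0 ≤ d → d ^ 2 = 3072 → d = D := by
    intro d hd h
    rw [hD, ← h, Real.sqrt_sq hd]
  -- the configuration
  set pt : {v : Fin 416 // v ∈ insert w T} → EuclideanSpace ℝ (Fin 416) :=
    fun v => if v.1 = w then p else vtx adj v.1 with hpt
  have hmemT : ∀ v : {v : Fin 416 // v ∈ insert w T}, v.1 ≠ w → v.1 ∈ T := by
    intro v hv
    rcases Finset.mem_insert.mp v.2 with h | h
    · exact absurd h hv
    · exact h
  have hptL : ∀ v, pt v ∈ L := by
    intro v
    simp only [hpt]
    split_ifs with h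
    · exact hpL
    · exact hvL v.1 (hmemT v h)
  have hDall : ∀ i j, dist (pt i) (pt j) ≤ D := by
    intro i j
    simp only [hpt]
    by_cases hi : i.1 = w <;> by_cases hj : j.1 = w
    · rw [if_pos hi, if_pos hj, dist_self]
      exact hDpos.le
    · rw [if_pos hi, if_neg hj]
      apply hle_of_sq _ dist_nonneg
      rw [hpdist j.1 (hmemT j hj)]
      rcases gramMat_of_ne (adj := adj) (i := w) (j := j.1) (fun h => hj h.symm) with h | h <;>
        rw [h] <;> nlinarith
    · rw [if_neg hi, if_pos hj, dist_comm]
      apply hle_of_sq _ dist_nonneg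
      rw [hpdist i.1 (hmemT i hi)]
      rcases gramMat_of_ne (adj := adj) (i := w) (j := i.1) (fun h => hi h.symm) with h | h <;>
        rw [h] <;> nlinarith
    · rw [if_neg hi, if_neg hj]
      apply hle_of_sq _ dist_nonneg
      rw [dist_sq_vtx hsymm hmul]
      rcases gramMat_cases (adj := adj) i.1 j.1 with h | h | h <;> rw [h] <;> norm_num
  have hfar : ∀ i j : {v : Fin 416 // v ∈ insert w T}, i ≠ j → ¬ adj i.1 j.1 →
      dist (pt i) (pt j) = D := by
    intro i j hij hadj
    have hij' : i.1 ≠ j.1 := fun h => hij (Subtype.ext h)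
    simp only [hpt]
    by_cases hi : i.1 = w <;> by_cases hj : j.1 = w
    · exact absurd (hi.trans hj.symm) hij'
    · rw [if_pos hi, if_neg hj]
      apply heq_of_sq _ dist_nonneg
      have hadj' : ¬ adj w j.1 := fun h => hadj (by rw [hi]; exact h)
      rw [hpdist j.1 (hmemT j hj), gramMat_of_ne_of_not_adj (fun h => hj h.symm) hadj']
      linarith
    · rw [if_neg hi, if_pos hj, dist_comm]
      apply heq_of_sq _ dist_nonneg
      have hadj' : ¬ adj w i.1 := fun h => hadj (by rw [hj]; exact hsymm w i.1 h)
      rw [hpdist i.1 (hmemT i hi), gramMat_of_ne_of_not_adj (fun h => hi h.symm) hadj']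
      linarith
    · rw [if_neg hi, if_neg hj]
      apply heq_of_sq _ dist_nonneg
      rw [dist_sq_vtx hsymm hmul, gramMat_of_ne_of_not_adj hij' hadj]
      norm_num
  have hcl : ∀ S : Finset {v : Fin 416 // v ∈ insert w T},
      (∀ i ∈ S, ∀ j ∈ S, i ≠ j → adj i.1 j.1) → S.card ≤ 5 := by
    intro S hS
    have := hclique (S.map (Function.Embedding.subtype _)) (by
      intro i hi j hj hij
      obtain ⟨i', hi', rfl⟩ := Finset.mem_map.mp hi
      obtain ⟨j', hj', rfl⟩ := Finset.mem_map.mp hj
      exact hS i' hi' j' hj' (fun h => hij (by rw [h])))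
    rwa [Finset.card_map] at this
  have hcard : 320 < Fintype.card {v : Fin 416 // v ∈ insert w T} := by
    rw [Fintype.card_coe, Finset.card_insert_of_notMem hw]
    omega
  obtain ⟨y', hy'⟩ := exists_isometric_copy pt L hLrank.le hptL
  exact borsuk_fails_of_config y' (fun i j => adj i.1 j.1) D hDpos
    (fun i j => by rw [hy']; exact hDall i j)
    (fun i j hij hadj => by rw [hy']; exact hfar i j hij hadj) hcl hcard

end assembly

end Vale.Agent.Lib.P052
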