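import Vale.Agent.Lib.P052.ChkRows3

/-! # Kernel-evaluated check: clique search, least index from 0 to 15 -/

namespace Vale.Agent.Lib.P052

theorem topF_c0 : allF (fun i => topF (Nat.add i 0)) 2 = true := by decide +kernel

theorem topF_c1 : allF (fun i => topF (Nat.add i 2)) 2 = true := by decide +kernel

theorem topF_c2 : allF (fun i => topF (Nat.add i 4)) 2 = true := by decide +kernel

theorem topF_c3 : allF (fun i => topF (Nat.add i 6)) 8 = true := by decide +kernel

theorem topF_c4 : allF (fun i => topF (Nat.add i 14)) 2 = true := by decide +kernel

end Vale.Agent.Lib.P052
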