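import Vale.Agent.Lib.P052.ChkClq0

/-! # Kernel-evaluated check: clique search, least index from 16 to 29 -/

namespace Vale.Agent.Lib.P052

theorem topF_c5 : allF (fun i => topF (Nat.add i 16)) 3 = true := by decide +kernel

theorem topF_c6 : allF (fun i => topF (Nat.add i 19)) 2 = true := by decide +kernel

theorem topF_c7 : allF (fun i => topF (Nat.add i 21)) 3 = true := by decide +kernel

theorem topF_c8 : allF (fun i => topF (Nat.add i 24)) 3 = true := by decide +kernel

theorem topF_c9 : allF (fun i => topF (Nat.add i 27)) 3 = true := by decide +kernel

end Vale.Agent.Lib.P052
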