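import Vale.Agent.Lib.P052.ChkClq1

/-! # Kernel-evaluated check: clique search, least index from 30 to 46 -/

namespace Vale.Agent.Lib.P052

theorem topF_c10 : allF (fun i => topF (Nat.add i 30)) 4 = true := by decide +kernel

theorem topF_c11 : allF (fun i => topF (Nat.add i 34)) 2 = true := by decide +kernel

theorem topF_c12 : allF (fun i => topF (Nat.add i 36)) 3 = true := by decide +kernel

theorem topF_c13 : allF (fun i => topF (Nat.add i 39)) 5 = true := by decide +kernel

theorem topF_c14 : allF (fun i => topF (Nat.add i 44)) 3 = true := by decide +kernel

end Vale.Agent.Lib.P052
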