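import Vale.Agent.Lib.P052.ChkClq2

/-! # Kernel-evaluated check: clique search, least index from 47 to 67 -/

namespace Vale.Agent.Lib.P052

theorem topF_c15 : allF (fun i => topF (Nat.add i 47)) 4 = true := by decide +kernel

theorem topF_c16 : allF (fun i => topF (Nat.add i 51)) 4 = true := by decide +kernel

theorem topF_c17 : allF (fun i => topF (Nat.add i 55)) 4 = true := by decide +kernel

theorem topF_c18 : allF (fun i => topF (Nat.add i 59)) 6 = true := by decide +kernel

theorem topF_c19 : allF (fun i => topF (Nat.add i 65)) 3 = true := by decide +kernel

end Vale.Agent.Lib.P052
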