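import Vale.Agent.Lib.P052.ChkClq3

/-! # Kernel-evaluated check: clique search, least index from 68 to 88 -/

namespace Vale.Agent.Lib.P052

theorem topF_c20 : allF (fun i => topF (Nat.add i 68)) 4 = true := by decide +kernel

theorem topF_c21 : allF (fun i => topF (Nat.add i 72)) 4 = true := by decide +kernel

theorem topF_c22 : allF (fun i => topF (Nat.add i 76)) 3 = true := by decide +kernel

theorem topF_c23 : allF (fun i => topF (Nat.add i 79)) 5 = true := by decide +kernel

theorem topF_c24 : allF (fun i => topF (Nat.add i 84)) 5 = true := by decide +kernel

end Vale.Agent.Lib.P052
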