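import Vale.Agent.Lib.P052.ChkClq4

/-! # Kernel-evaluated check: clique search, least index from 89 to 118 -/

namespace Vale.Agent.Lib.P052

theorem topF_c25 : allF (fun i => topF (Nat.add i 89)) 5 = true := by decide +kernel

theorem topF_c26 : allF (fun i => topF (Nat.add i 94)) 5 = true := by decide +kernel

theorem topF_c27 : allF (fun i => topF (Nat.add i 99)) 7 = true := by decide +kernel

theorem topF_c28 : allF (fun i => topF (Nat.add i 106)) 6 = true := by decide +kernel

theorem topF_c29 : allF (fun i => topF (Nat.add i 112)) 7 = true := by decide +kernel

end Vale.Agent.Lib.P052
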