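import Vale.Agent.Lib.P052.ChkClq5

/-! # Kernel-evaluated check: clique search, least index from 119 to 161 -/

namespace Vale.Agent.Lib.P052

theorem topF_c30 : allF (fun i => topF (Nat.add i 119)) 7 = true := by decide +kernel

theorem topF_c31 : allF (fun i => topF (Nat.add i 126)) 6 = true := by decide +kernel

theorem topF_c32 : allF (fun i => topF (Nat.add i 132)) 9 = true := by decide +kernel

theorem topF_c33 : allF (fun i => topF (Nat.add i 141)) 11 = true := by decide +kernel

theorem topF_c34 : allF (fun i => topF (Nat.add i 152)) 10 = true := by decide +kernel

end Vale.Agent.Lib.P052
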