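import Vale.Agent.Lib.P052.ChkClq6

/-! # Kernel-evaluated check: clique search, least index from 162 to 415 -/

namespace Vale.Agent.Lib.P052

theorem topF_c35 : allF (fun i => topF (Nat.add i 162)) 17 = true := by decide +kernel

theorem topF_c36 : allF (fun i => topF (Nat.add i 179)) 13 = true := by decide +kernel

theorem topF_c37 : allF (fun i => topF (Nat.add i 192)) 23 = true := by decide +kernel

theorem topF_c38 : allF (fun i => topF (Nat.add i 215)) 39 = true := by decide +kernel

theorem topF_c39 : allF (fun i => topF (Nat.add i 254)) 162 = true := by decide +kernel

end Vale.Agent.Lib.P052
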