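import Vale.Agent.Lib.P052.ChkSmall

/-! # Kernel-evaluated check: the packed matrix identity, rows 0 to 103 -/

namespace Vale.Agent.Lib.P052

theorem rowChkF_c0 : allF (fun i => rowChkF (Nat.add i 0)) 26 = true := by decide +kernel

theorem rowChkF_c1 : allF (fun i => rowChkF (Nat.add i 26)) 26 = true := by decide +kernel

theorem rowChkF_c2 : allF (fun i => rowChkF (Nat.add i 52)) 26 = true := by decide +kernel

theorem rowChkF_c3 : allF (fun i => rowChkF (Nat.add i 78)) 26 = true := by decide +kernel

end Vale.Agent.Lib.P052
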