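import Vale.Agent.Lib.P052.ChkRows0

/-! # Kernel-evaluated check: the packed matrix identity, rows 104 to 207 -/

namespace Vale.Agent.Lib.P052

theorem rowChkF_c4 : allF (fun i => rowChkF (Nat.add i 104)) 26 = true := by decide +kernel

theorem rowChkF_c5 : allF (fun i => rowChkF (Nat.add i 130)) 26 = true := by decide +kernel

theorem rowChkF_c6 : allF (fun i => rowChkF (Nat.add i 156)) 26 = true := by decide +kernel

theorem rowChkF_c7 : allF (fun i => rowChkF (Nat.add i 182)) 26 = true := by decide +kernel

end Vale.Agent.Lib.P052
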