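import Vale.Agent.Lib.P052.ChkRows1

/-! # Kernel-evaluated check: the packed matrix identity, rows 208 to 311 -/

namespace Vale.Agent.Lib.P052

theorem rowChkF_c8 : allF (fun i => rowChkF (Nat.add i 208)) 26 = true := by decide +kernel

theorem rowChkF_c9 : allF (fun i => rowChkF (Nat.add i 234)) 26 = true := by decide +kernel

theorem rowChkF_c10 : allF (fun i => rowChkF (Nat.add i 260)) 26 = true := by decide +kernel

theorem rowChkF_c11 : allF (fun i => rowChkF (Nat.add i 286)) 26 = true := by decide +kernel

end Vale.Agent.Lib.P052
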