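import Vale.Agent.Lib.P052.ChkRows2

/-! # Kernel-evaluated check: the packed matrix identity, rows 312 to 415 -/

namespace Vale.Agent.Lib.P052

theorem rowChkF_c12 : allF (fun i => rowChkF (Nat.add i 312)) 26 = true := by decide +kernel

theorem rowChkF_c13 : allF (fun i => rowChkF (Nat.add i 338)) 26 = true := by decide +kernel

theorem rowChkF_c14 : allF (fun i => rowChkF (Nat.add i 364)) 26 = true := by decide +kernel

theorem rowChkF_c15 : allF (fun i => rowChkF (Nat.add i 390)) 26 = true := by decide +kernel

end Vale.Agent.Lib.P052
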