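import Vale.Agent.Lib.P052.Fast

/-! # Kernel-evaluated checks: the small ones, the column bounds and the entries on the selected set -/

namespace Vale.Agent.Lib.P052

theorem onesF_true : onesF = true := by decide +kernel

theorem colSumF_true : colSumF = true := by decide +kernel

theorem traceF_true : traceF = true := by decide +kernel

theorem countF_true : countF = true := by decide +kernel

theorem diagF_true : diagF = true := by decide +kernel

theorem idxF_true : idxF = true := by decide +kernel

theorem maskOK_true : maskOK = true := by decide +kernel

theorem colBndF_true : allF colBndF 416 = true := by decide +kernel

theorem pairF_true : allF pairF 416 = true := by decide +kernel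

end Vale.Agent.Lib.P052
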