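import Vale.Agent.Lib.P052.MatData

/-!
# Computable checks on the data of the 63-dimensional counterexample

All functions here are evaluated by the kernel on the literals of `MatData`.
-/

namespace Vale.Agent.Lib.P052

/-- The base `2^20` of the packed representation. -/
def bB : Nat := 1048576

/-- The number `2^416`. -/
def p416 : Nat := Nat.pow 2 416

/-- Column `u` of the packed matrix. -/
def col (u : Nat) : Nat := colList.getD u 0

/-- The entry `(v, u)` of the matrix `Q + 9`: the base-`2^20` digit number `v` of column `u`. -/
def qt (v u : Nat) : Nat := Nat.mod (Nat.div (col u) (Nat.pow bB v)) bB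

/-- The neighbourhood bit mask of the index `v`. -/
def nb (v : Nat) : Nat := Nat.mod (Nat.shiftRight nbBig (Nat.mul 416 v)) p416

/-- Membership in the selected set of 321 indices. -/
def inS (v : Nat) : Bool := Nat.testBit sMask v

/-- `allTo p n` checks `p i` for all `i < n`. -/
def allTo (p : Nat → Bool) : Nat → Bool
  | 0 => true
  | n+1 => Bool.and (p n) (allTo p n)

/-- `sumTo f n` is the sum of `f i` over `i < n`. -/
def sumTo (f : Nat → Nat) : Nat → Nat
  | 0 => 0
  | n+1 => Nat.add (sumTo f n) (f n)

/-- `rowAcc bv l acc` adds to `acc` the numbers `d * c` for `c` in `l`, where `d` is the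
base-`2^20` digit of `c` at the position with weight `bv`. -/
def rowAcc (bv : Nat) : List Nat → Nat → Nat
  | [], acc => acc
  | c :: l, acc => rowAcc bv l (Nat.add acc (Nat.mul (Nat.mod (Nat.div c bv) bB) c))

/-- The packed form of row `v` of the identity `(Q+9)(Q+9)ᵀ = 96 (Q+9) + 32832 J`. -/
def rowOK (v : Nat) : Bool :=
  Nat.beq (rowAcc (Nat.pow bB v) colList 0) (Nat.add (Nat.mul 96 (col v)) (Nat.mul 32832 onesLit))

/-- The first `n` digits of `c` are at most `24`. -/
def digOK (c : Nat) : Nat → Bool
  | 0 => true
  | n+1 => Bool.and (Nat.ble (Nat.mod (Nat.div c (Nat.pow bB n)) bB) 24) (digOK c n)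

/-- Column `u` has 416 digits, all at most `24`. -/
def colOK (u : Nat) : Bool :=
  Bool.and (Nat.ble (Nat.succ (col u)) (Nat.pow bB 416)) (digOK (col u) 416)

/-- The columns add up to the packed constant vector `3744`. -/
def colSumOK : Bool := Nat.beq (sumTo col 416) (Nat.mul 3744 onesLit)

/-- `onesLit` is the sum of the first 416 powers of the base. -/
def onesOK : Bool := Nat.beq onesLit (sumTo (fun w => Nat.pow bB w) 416)

/-- The diagonal of `Q + 9` adds up to `9792`. -/
def traceOK : Bool := Nat.beq (sumTo (fun v => qt v v) 416) 9792

/-- The selected set has 321 elements. -/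
def countOK : Bool := Nat.beq (sumTo (fun v => cond (inS v) 1 0) 416) 321

/-- Diagonal entries on the selected set: `22` at the index `0` and `24` elsewhere. -/
def diagOK : Bool :=
  allTo (fun v => cond (inS v) (Nat.beq (qt v v) (cond (Nat.beq v 0) 22 24)) true) 416

/-- Off-diagonal entries on the selected set: `8`, or `12` at a pair marked in `nb`. -/
def pairOK (v : Nat) : Bool :=
  cond (inS v)
    (allTo (fun u => cond (inS u)
      (Bool.or (Nat.beq (qt u v) 8) (Bool.and (Nat.beq (qt u v) 12) (Nat.testBit (nb u) v))) true) v)
    true

/-- The index table returns `v` at the power `2^v`. -/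
def idxOK : Bool :=
  allTo (fun v => Nat.beq (Nat.mod (Nat.div idxBig (Nat.pow (Nat.pow 2 v) 9)) 512) v) 416

/-- The mask of the selected set has only bits below 416, and contains the index `0`. -/
def maskOK : Bool := Bool.and (Nat.ble (Nat.succ sMask) p416) (inS 0)

/-- One level of the clique search: `loopC f fuel cand` runs through the set bits `v` of `cand`
from the lowest one and returns `true` as soon as `f` accepts the set of higher candidates
that are marked in `nb v`. -/
def loopC (f : Nat → Bool) : Nat → Nat → Bool
  | 0, _ => false
  | fuel+1, cand => cond (Nat.beq cand 0) false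
      (Bool.or
        (f (Nat.land (Nat.xor cand (Nat.gcd cand p416))
          (nb (Nat.mod (Nat.div idxBig (Nat.pow (Nat.gcd cand p416) 9)) 512))))
        (loopC f fuel (Nat.xor cand (Nat.gcd cand p416))))

/-- `hasClique k cand` searches for `k` indices in `cand`, each marked in `nb` of all the
smaller ones. -/
def hasClique : Nat → Nat → Bool
  | 0, _ => true
  | k+1, cand => loopC (hasClique k) 416 cand

/-- No six pairwise marked indices of the selected set have `v` as their least element. -/
def topOK (v : Nat) : Bool :=
  cond (inS v)
    (not (hasClique 5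
      (Nat.land (Nat.shiftLeft (Nat.shiftRight sMask (Nat.succ v)) (Nat.succ v)) (nb v))))
    true

end Vale.Agent.Lib.P052
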