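import Mathlib
import Vale.Agent.Lib.P052.MatDefs

/-!
# Generic lemmas on the packed representation
-/

namespace Vale.Agent.Lib.P052

open Finset

theorem allTo_iff (p : ℕ → Bool) (n : ℕ) : allTo p n = true ↔ ∀ i < n, p i = true := by
  induction n with
  | zero => simp [allTo]
  | succ n ih =>
    have h : allTo p (n + 1) = (p n && allTo p n) := rfl
    rw [h, Bool.and_eq_true, ih]
    constructor
    · rintro ⟨h1, h2⟩ i hi
      rcases Nat.lt_succ_iff_lt_or_eq.mp hi with h | h
      · exact h2 i h
      · rw [h]; exact h1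
    · intro h
      exact ⟨h n (Nat.lt_succ_self n), fun i hi => h i (Nat.lt_succ_of_lt hi)⟩

theorem sumTo_eq (f : ℕ → ℕ) (n : ℕ) : sumTo f n = ∑ i ∈ range n, f i := by
  induction n with
  | zero => simp [sumTo]
  | succ n ih =>
    have h : sumTo f (n + 1) = sumTo f n + f n := rfl
    rw [h, ih, Finset.sum_range_succ]

theorem rowAcc_eq (bv : ℕ) (l : List ℕ) (acc : ℕ) :
    rowAcc bv l acc = acc + (l.map (fun c => (c / bv % bB) * c)).sum := by
  induction l generalizing acc with
  | nil => simp [rowAcc]
  | cons c l ih =>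
    have h : rowAcc bv (c :: l) acc = rowAcc bv l (acc + (c / bv % bB) * c) := rfl
    rw [h, ih]
    simp [add_assoc]

theorem list_sum_getD (g : ℕ → ℕ) (l : List ℕ) :
    (l.map g).sum = ∑ i ∈ range l.length, g (l.getD i 0) := by
  induction l with
  | nil => simp
  | cons c l ih =>
    rw [List.map_cons, List.sum_cons, List.length_cons, Finset.sum_range_succ', ih]
    simp [add_comm]

/-- Digit expansion. -/
theorem digits_sum (b c : ℕ) (n : ℕ) :
    ∑ i ∈ range n, (c / b ^ i % b) * b ^ i = c % b ^ n := by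
  induction n with
  | zero => simp [Nat.mod_one]
  | succ n ih =>
    rw [Finset.sum_range_succ, ih, Nat.mod_pow_succ]
    ring

theorem packed_lt (b : ℕ) (f : ℕ → ℕ) (n : ℕ) (hf : ∀ i < n, f i < b) :
    ∑ i ∈ range n, f i * b ^ i < b ^ n := by
  induction n with
  | zero => simp
  | succ n ih =>
    rw [Finset.sum_range_succ]
    have h1 := ih (fun i hi => hf i (Nat.lt_succ_of_lt hi))
    have h2 : f n + 1 ≤ b := hf n (Nat.lt_succ_self n)
    calc ∑ i ∈ range n, f i * b ^ i + f n * b ^ n < b ^ n + f n * b ^ n := by omega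
      _ = (f n + 1) * b ^ n := by ring
      _ ≤ b * b ^ n := Nat.mul_le_mul_right _ h2
      _ = b ^ (n + 1) := by ring

/-- Digit extraction from a packed sum with small coefficients. -/
theorem packed_digit (b : ℕ) (f : ℕ → ℕ) (n : ℕ) (hf : ∀ i < n, f i < b) (j : ℕ) (hj : j < n) :
    (∑ i ∈ range n, f i * b ^ i) / b ^ j % b = f j := by
  induction n with
  | zero => omega
  | succ n ih =>
    have hb : 0 < b := lt_of_le_of_lt (Nat.zero_le _) (hf n (Nat.lt_succ_self n))
    have hlt := packed_lt b f n (fun i hi => hf i (Nat.lt_succ_of_lt hi))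
    rw [Finset.sum_range_succ]
    rcases Nat.lt_succ_iff_lt_or_eq.mp hj with h | h
    · have e : f n * b ^ n = b ^ j * (b * (f n * b ^ (n - j - 1))) := by
        have h3 : b ^ n = b ^ j * (b * b ^ (n - j - 1)) := by
          rw [← pow_succ', ← pow_add]
          congr 1
          omega
        rw [h3]
        ring
      rw [e, Nat.add_mul_div_left _ _ (pow_pos hb j), Nat.add_mul_mod_self_left]
      exact ih (fun i hi => hf i (Nat.lt_succ_of_lt hi)) h
    · subst h
      rw [Nat.add_mul_div_right _ _ (pow_pos hb j), Nat.div_eq_of_lt hlt, zero_add]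
      exact Nat.mod_eq_of_lt (hf j (Nat.lt_succ_self j))

/-- Two packed sums with small coefficients are equal only if the coefficients agree. -/
theorem packed_inj (b : ℕ) (f g : ℕ → ℕ) (n : ℕ) (hf : ∀ i < n, f i < b) (hg : ∀ i < n, g i < b)
    (h : ∑ i ∈ range n, f i * b ^ i = ∑ i ∈ range n, g i * b ^ i) (j : ℕ) (hj : j < n) :
    f j = g j := by
  rw [← packed_digit b f n hf j hj, ← packed_digit b g n hg j hj, h]

end Vale.Agent.Lib.P052
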