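import Mathlib
import Vale.Agent.Lib.P052.Pack
import Vale.Agent.Lib.P052.ChkClq7

/-!
# The recursor forms agree with the functions of `MatDefs`

Consequently the kernel-evaluated checks of the `Chk` files give the checks in their original
form.
-/

namespace Vale.Agent.Lib.P052

theorem allF_succ (p : ℕ → Bool) (n : ℕ) : allF p (n + 1) = (p n && allF p n) := by
  show @Bool.rec (fun _ => Bool) false (allF p n) (p n) = (p n && allF p n)
  cases p n <;> rfl

theorem allF_eq (p : ℕ → Bool) (n : ℕ) : allF p n = allTo p n := by
  induction n with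
  | zero => rfl
  | succ n ih =>
    have h : allTo p (n + 1) = (p n && allTo p n) := rfl
    rw [allF_succ, ih, h]

theorem sumF_eq (f : ℕ → ℕ) (n : ℕ) : sumF f n = sumTo f n := by
  induction n with
  | zero => rfl
  | succ n ih =>
    have h1 : sumF f (n + 1) = Nat.add (sumF f n) (f n) := rfl
    have h2 : sumTo f (n + 1) = Nat.add (sumTo f n) (f n) := rfl
    rw [h1, h2, ih]

theorem nthF_eq (l : List ℕ) (n : ℕ) : nthF l n = l.getD n 0 := by
  induction l generalizing n with
  | nil => simp [nthF]
  | cons c l ih =>
    cases n with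
    | zero => rfl
    | succ m =>
      have h1 : nthF (c :: l) (m + 1) = nthF l m := rfl
      rw [h1, ih, List.getD_cons_succ]

theorem colF_eq (u : ℕ) : colF u = col u := nthF_eq colList u

theorem qtF_eq (v u : ℕ) : qtF v u = qt v u := by
  unfold qtF qt
  rw [colF_eq]

theorem tbF_eq (m n : ℕ) : tbF m n = Nat.testBit m n := by
  have h : Nat.land 1 (Nat.shiftRight m n) = 0 ∨ Nat.land 1 (Nat.shiftRight m n) = 1 := by
    have h1 : Nat.land 1 (Nat.shiftRight m n) = (m >>> n) % 2 := Nat.one_and_eq_mod_two _
    omega
  have h2 : Nat.testBit m n = (Nat.land 1 (Nat.shiftRight m n) != 0) := rfl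
  unfold tbF
  rw [h2]
  rcases h with h | h <;> rw [h] <;> rfl

theorem rowAccF_eq (bv : ℕ) (l : List ℕ) (acc : ℕ) : rowAccF bv l acc = rowAcc bv l acc := by
  induction l generalizing acc with
  | nil => rfl
  | cons c l ih =>
    have h1 : rowAccF bv (c :: l) acc
        = rowAccF bv l (Nat.add acc (Nat.mul (Nat.mod (Nat.div c bv) bB) c)) := rfl
    have h2 : rowAcc bv (c :: l) acc
        = rowAcc bv l (Nat.add acc (Nat.mul (Nat.mod (Nat.div c bv) bB) c)) := rfl
    rw [h1, h2, ih]

theorem rowChkF_eq (v : ℕ) : rowChkF v = rowOK v := by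
  unfold rowChkF rowOK
  rw [rowAccF_eq, colF_eq]

theorem loopF_eq (f : ℕ → Bool) : ∀ fuel cand : ℕ, loopF f fuel cand = loopC f fuel cand := by
  intro fuel
  induction fuel with
  | zero => intro cand; rfl
  | succ n ih =>
    intro cand
    have h1 : loopF f (n + 1) cand = @Bool.rec (fun _ => Bool)
        (@Bool.rec (fun _ => Bool) (loopF f n (Nat.xor cand (Nat.gcd cand p416))) true
          (f (Nat.land (Nat.xor cand (Nat.gcd cand p416))
            (nb (Nat.mod (Nat.div idxBig (Nat.pow (Nat.gcd cand p416) 9)) 512)))))
        false (Nat.beq cand 0) := rfl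
    have h2 : loopC f (n + 1) cand = cond (Nat.beq cand 0) false
        (Bool.or (f (Nat.land (Nat.xor cand (Nat.gcd cand p416))
            (nb (Nat.mod (Nat.div idxBig (Nat.pow (Nat.gcd cand p416) 9)) 512))))
          (loopC f n (Nat.xor cand (Nat.gcd cand p416)))) := rfl
    rw [h1, h2, ih]
    generalize Nat.beq cand 0 = b
    generalize f (Nat.land (Nat.xor cand (Nat.gcd cand p416))
            (nb (Nat.mod (Nat.div idxBig (Nat.pow (Nat.gcd cand p416) 9)) 512))) = c
    cases b <;> cases c <;> rfl

theorem hasCliqueF_eq : ∀ k : ℕ, hasCliqueF k = hasClique k := by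
  intro k
  induction k with
  | zero => funext cand; rfl
  | succ k ih =>
    funext cand
    have h1 : hasCliqueF (k + 1) cand = loopF (hasCliqueF k) 416 cand := rfl
    have h2 : hasClique (k + 1) cand = loopC (hasClique k) 416 cand := rfl
    rw [h1, h2, ih, loopF_eq]

theorem topF_eq (v : ℕ) : topF v = topOK v := by
  unfold topF topOK inS
  rw [tbF_eq, hasCliqueF_eq]
  generalize Nat.testBit sMask v = b
  generalize hasClique 5
    (Nat.land (Nat.shiftLeft (Nat.shiftRight sMask (Nat.succ v)) (Nat.succ v)) (nb v)) = c
  cases b <;> cases c <;> rfl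

theorem pairF_eq (v : ℕ) : pairF v = pairOK v := by
  unfold pairF pairOK inS
  rw [tbF_eq, allF_eq]
  have h : (fun u => @Bool.rec (fun _ => Bool) true
      (@Bool.rec (fun _ => Bool)
        (@Bool.rec (fun _ => Bool) false (tbF (nb u) v) (Nat.beq (qtF u v) 12))
        true (Nat.beq (qtF u v) 8))
      (tbF sMask u))
      = (fun u => cond (Nat.testBit sMask u)
      (Bool.or (Nat.beq (qt u v) 8) (Bool.and (Nat.beq (qt u v) 12) (Nat.testBit (nb u) v)))
      true) := by
    funext u
    rw [tbF_eq, tbF_eq, qtF_eq]
    generalize Nat.testBit sMask u = b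
    generalize Nat.beq (qt u v) 8 = c
    generalize Nat.beq (qt u v) 12 = d
    generalize Nat.testBit (nb u) v = e
    cases b <;> cases c <;> cases d <;> cases e <;> rfl
  rw [h]
  generalize Nat.testBit sMask v = b
  cases b <;> rfl

theorem onesOK_true : onesOK = true := by
  have h : onesF = true := onesF_true
  unfold onesF at h
  rw [sumF_eq] at h
  unfold onesOK
  exact h

theorem colSumOK_true : colSumOK = true := by
  have h : colSumF = true := colSumF_true
  unfold colSumF at h
  rw [sumF_eq, funext colF_eq] at h
  unfold colSumOK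
  exact h

theorem traceOK_true : traceOK = true := by
  have h : traceF = true := traceF_true
  unfold traceF at h
  rw [sumF_eq, funext (fun v => qtF_eq v v)] at h
  unfold traceOK
  exact h

theorem countOK_true : countOK = true := by
  have h : countF = true := countF_true
  unfold countF at h
  have e : (fun v => @Bool.rec (fun _ => ℕ) 0 1 (tbF sMask v)) = (fun v => cond (inS v) 1 0) := by
    funext v
    unfold inS
    rw [tbF_eq]
    generalize Nat.testBit sMask v = b
    cases b <;> rfl
  rw [sumF_eq, e] at h
  unfold countOK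
  exact h

theorem diagOK_true : diagOK = true := by
  have h : diagF = true := diagF_true
  unfold diagF at h
  have e : (fun v => @Bool.rec (fun _ => Bool) true
      (Nat.beq (qtF v v) (@Bool.rec (fun _ => ℕ) 24 22 (Nat.beq v 0))) (tbF sMask v))
      = (fun v => cond (inS v) (Nat.beq (qt v v) (cond (Nat.beq v 0) 22 24)) true) := by
    funext v
    unfold inS
    rw [tbF_eq, qtF_eq]
    generalize Nat.testBit sMask v = b
    generalize Nat.beq v 0 = c
    cases b <;> cases c <;> rfl
  rw [allF_eq, e] at h
  exact h

theorem idxOK_true : idxOK = true := by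
  have h : idxF = true := idxF_true
  unfold idxF at h
  rw [allF_eq] at h
  exact h

theorem pairOK_true : allTo pairOK 416 = true := by
  have h : allF pairF 416 = true := pairF_true
  rw [allF_eq, funext pairF_eq] at h
  exact h

/-- A check of a range of indices, from its kernel-evaluated form. -/
theorem allF_range (p : ℕ → Bool) (a len b : ℕ) (hb : a + len = b)
    (h : allF (fun i => p (Nat.add i a)) len = true) : ∀ v, a ≤ v → v < b → p v = true := by
  intro v h1 h2
  rw [allF_eq] at h
  have h3 := (allTo_iff _ len).mp h (v - a) (by omega)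
  have e : Nat.add (v - a) a = v := by show (v - a) + a = v; omega
  simpa only [e] using h3

theorem range_glue {P : ℕ → Prop} {a b c : ℕ} (h1 : ∀ v, a ≤ v → v < b → P v)
    (h2 : ∀ v, b ≤ v → v < c → P v) : ∀ v, a ≤ v → v < c → P v := by
  intro v ha hc
  by_cases h : v < b
  · exact h1 v ha h
  · exact h2 v (by omega) hc

theorem rowChkF_all : ∀ v, 0 ≤ v → v < 416 → rowChkF v = true :=
  (range_glue (allF_range rowChkF 0 26 26 rfl rowChkF_c0)
    (range_glue (allF_range rowChkF 26 26 52 rfl rowChkF_c1)
    (range_glue (allF_range rowChkF 52 26 78 rfl rowChkF_c2)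
    (range_glue (allF_range rowChkF 78 26 104 rfl rowChkF_c3)
    (range_glue (allF_range rowChkF 104 26 130 rfl rowChkF_c4)
    (range_glue (allF_range rowChkF 130 26 156 rfl rowChkF_c5)
    (range_glue (allF_range rowChkF 156 26 182 rfl rowChkF_c6)
    (range_glue (allF_range rowChkF 182 26 208 rfl rowChkF_c7)
    (range_glue (allF_range rowChkF 208 26 234 rfl rowChkF_c8)
    (range_glue (allF_range rowChkF 234 26 260 rfl rowChkF_c9)
    (range_glue (allF_range rowChkF 260 26 286 rfl rowChkF_c10)
    (range_glue (allF_range rowChkF 286 26 312 rfl rowChkF_c11)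
    (range_glue (allF_range rowChkF 312 26 338 rfl rowChkF_c12)
    (range_glue (allF_range rowChkF 338 26 364 rfl rowChkF_c13)
    (range_glue (allF_range rowChkF 364 26 390 rfl rowChkF_c14)
    (allF_range rowChkF 390 26 416 rfl rowChkF_c15))))))))))))))))

theorem topF_all : ∀ v, 0 ≤ v → v < 416 → topF v = true :=
  (range_glue (allF_range topF 0 2 2 rfl topF_c0)
    (range_glue (allF_range topF 2 2 4 rfl topF_c1)
    (range_glue (allF_range topF 4 2 6 rfl topF_c2)
    (range_glue (allF_range topF 6 8 14 rfl topF_c3)
    (range_glue (allF_range topF 14 2 16 rfl topF_c4)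
    (range_glue (allF_range topF 16 3 19 rfl topF_c5)
    (range_glue (allF_range topF 19 2 21 rfl topF_c6)
    (range_glue (allF_range topF 21 3 24 rfl topF_c7)
    (range_glue (allF_range topF 24 3 27 rfl topF_c8)
    (range_glue (allF_range topF 27 3 30 rfl topF_c9)
    (range_glue (allF_range topF 30 4 34 rfl topF_c10)
    (range_glue (allF_range topF 34 2 36 rfl topF_c11)
    (range_glue (allF_range topF 36 3 39 rfl topF_c12)
    (range_glue (allF_range topF 39 5 44 rfl topF_c13)
    (range_glue (allF_range topF 44 3 47 rfl topF_c14)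
    (range_glue (allF_range topF 47 4 51 rfl topF_c15)
    (range_glue (allF_range topF 51 4 55 rfl topF_c16)
    (range_glue (allF_range topF 55 4 59 rfl topF_c17)
    (range_glue (allF_range topF 59 6 65 rfl topF_c18)
    (range_glue (allF_range topF 65 3 68 rfl topF_c19)
    (range_glue (allF_range topF 68 4 72 rfl topF_c20)
    (range_glue (allF_range topF 72 4 76 rfl topF_c21)
    (range_glue (allF_range topF 76 3 79 rfl topF_c22)
    (range_glue (allF_range topF 79 5 84 rfl topF_c23)
    (range_glue (allF_range topF 84 5 89 rfl topF_c24)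
    (range_glue (allF_range topF 89 5 94 rfl topF_c25)
    (range_glue (allF_range topF 94 5 99 rfl topF_c26)
    (range_glue (allF_range topF 99 7 106 rfl topF_c27)
    (range_glue (allF_range topF 106 6 112 rfl topF_c28)
    (range_glue (allF_range topF 112 7 119 rfl topF_c29)
    (range_glue (allF_range topF 119 7 126 rfl topF_c30)
    (range_glue (allF_range topF 126 6 132 rfl topF_c31)
    (range_glue (allF_range topF 132 9 141 rfl topF_c32)
    (range_glue (allF_range topF 141 11 152 rfl topF_c33)
    (range_glue (allF_range topF 152 10 162 rfl topF_c34)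
    (range_glue (allF_range topF 162 17 179 rfl topF_c35)
    (range_glue (allF_range topF 179 13 192 rfl topF_c36)
    (range_glue (allF_range topF 192 23 215 rfl topF_c37)
    (range_glue (allF_range topF 215 39 254 rfl topF_c38)
    (allF_range topF 254 162 416 rfl topF_c39))))))))))))))))))))))))))))))))))))))))

theorem rowOK_true : allTo rowOK 416 = true := by
  rw [allTo_iff]
  intro v hv
  rw [← rowChkF_eq]
  exact rowChkF_all v (Nat.zero_le v) hv

theorem top_spec {v : ℕ} (hv : v < 416) : topOK v = true := by
  rw [← topF_eq]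
  exact topF_all v (Nat.zero_le v) hv

/-- Every column is below `2^8320` and has no bit in common with `digMask`. -/
theorem col_bnd {u : ℕ} (hu : u < 416) : col u < bB ^ 416 ∧ col u &&& digMask = 0 := by
  have h0 : allF colBndF 416 = true := colBndF_true
  rw [allF_eq] at h0
  have h := (allTo_iff _ 416).mp h0 u hu
  unfold colBndF at h
  rw [colF_eq] at h
  cases hb : Nat.ble (Nat.succ (col u)) (Nat.pow bB 416) with
  | false =>
    rw [hb] at h
    exact Bool.noConfusion h
  | true =>
    rw [hb] at h
    exact ⟨Nat.le_of_ble_eq_true hb, Nat.eq_of_beq_eq_true h⟩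

end Vale.Agent.Lib.P052
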