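import Mathlib
import Vale.Agent.Lib.P052.Pack
import Vale.Agent.Lib.P052.Twin

/-!
# Soundness of the clique search and the facts on the selected set
-/

namespace Vale.Agent.Lib.P052

open Finset

theorem p416_eq : p416 = 2 ^ 416 := by unfold p416; exact Nat.pow_eq

theorem idx_spec {v : ℕ} (hv : v < 416) : idxBig / (2 ^ v) ^ 9 % 512 = v := by
  have h := (allTo_iff _ 416).mp idxOK_true v hv
  rw [Nat.beq_eq] at h
  exact h

theorem sMask_lt : sMask < 2 ^ 416 := by
  have h : maskOK = true := maskOK_true
  unfold maskOK at h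
  rw [Bool.and_eq_true, Nat.ble_eq, p416_eq] at h
  exact h.1

theorem inS_zero : inS 0 = true := by
  have h : maskOK = true := maskOK_true
  unfold maskOK at h
  rw [Bool.and_eq_true] at h
  exact h.2

theorem inS_lt {v : ℕ} (h : inS v = true) : v < 416 := by
  have h1 : 2 ^ v ≤ sMask := Nat.ge_two_pow_of_testBit h
  have h2 := sMask_lt
  exact (Nat.pow_lt_pow_iff_right (by norm_num : 1 < 2)).mp (lt_of_le_of_lt h1 h2)

theorem count_spec : ((range 416).filter (fun v => inS v = true)).card = 321 := by
  have h : countOK = true := countOK_true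
  unfold countOK at h
  rw [Nat.beq_eq, sumTo_eq] at h
  rw [Finset.card_filter]
  rw [← h]
  refine Finset.sum_congr rfl (fun v _ => ?_)
  cases inS v <;> rfl

theorem diag_spec {v : ℕ} (hv : v < 416) (hs : inS v = true) :
    qt v v = if v = 0 then 22 else 24 := by
  have h := (allTo_iff _ 416).mp diagOK_true v hv
  simp only [hs, cond_true, Nat.beq_eq] at h
  rw [h]
  by_cases h0 : v = 0
  · subst h0; rfl
  · have : Nat.beq v 0 = false := by
      cases hb : Nat.beq v 0
      · rfl
      · exact absurd (Nat.eq_of_beq_eq_true hb) h0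
    simp [this, h0]

theorem pair_spec {u v : ℕ} (huv : u < v) (hv : v < 416) (hsu : inS u = true)
    (hsv : inS v = true) : qt u v = 8 ∨ (qt u v = 12 ∧ (nb u).testBit v = true) := by
  have h := (allTo_iff _ 416).mp pairOK_true v hv
  unfold pairOK at h
  simp only [hsv, cond_true] at h
  have h2 := (allTo_iff _ v).mp h u huv
  simp only [hsu, cond_true] at h2
  have h3 : (Nat.beq (qt u v) 8 || (Nat.beq (qt u v) 12 && (nb u).testBit v)) = true := h2
  rw [Bool.or_eq_true, Bool.and_eq_true, Nat.beq_eq, Nat.beq_eq] at h3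
  exact h3

/-- The lowest set bit, computed with a gcd. -/
theorem lsb_spec (cand : ℕ) (hb : ∀ i, cand.testBit i = true → i < 416) (hne : cand ≠ 0) :
    ∃ j, j < 416 ∧ Nat.gcd cand p416 = 2 ^ j ∧ cand.testBit j = true ∧
      ∀ i, cand.testBit i = true → j ≤ i := by
  rw [p416_eq]
  obtain ⟨j, hj, hd⟩ := (Nat.dvd_prime_pow Nat.prime_two).mp (Nat.gcd_dvd_right cand (2 ^ 416))
  obtain ⟨m, hm⟩ : 2 ^ j ∣ cand := hd ▸ Nat.gcd_dvd_left cand (2 ^ 416)
  have hbit : ∀ i, cand.testBit i = (decide (i ≥ j) && m.testBit (i - j)) := by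
    intro i; rw [hm, Nat.testBit_two_pow_mul]
  have hj416 : j < 416 := by
    obtain ⟨i, hi⟩ := Nat.exists_testBit_of_ne_zero hne
    have h1 := hb i hi
    rw [hbit i] at hi
    simp only [Bool.and_eq_true, decide_eq_true_eq] at hi
    omega
  have hodd : m % 2 = 1 := by
    by_contra hcon
    have hev : m % 2 = 0 := by omega
    obtain ⟨m', hm'⟩ : 2 ∣ m := Nat.dvd_of_mod_eq_zero hev
    have h1 : 2 ^ (j + 1) ∣ cand := ⟨m', by rw [hm, hm']; ring⟩
    have h2 : 2 ^ (j + 1) ∣ 2 ^ 416 := Nat.pow_dvd_pow 2 (by omega)
    have h3 : 2 ^ (j + 1) ∣ 2 ^ j := hd ▸ Nat.dvd_gcd h1 h2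
    have h4 := (Nat.pow_dvd_pow_iff_le_right (by norm_num : 1 < 2)).mp h3
    omega
  refine ⟨j, hj416, hd, ?_, ?_⟩
  · rw [hbit j]
    simp [hodd]
  · intro i hi
    rw [hbit i] at hi
    simp only [Bool.and_eq_true, decide_eq_true_eq] at hi
    exact hi.1

theorem loopC_succ (f : ℕ → Bool) (fuel cand : ℕ) (hne : cand ≠ 0) :
    loopC f (fuel + 1) cand
      = (f ((cand ^^^ Nat.gcd cand p416) &&& nb (idxBig / (Nat.gcd cand p416) ^ 9 % 512))
          || loopC f fuel (cand ^^^ Nat.gcd cand p416)) := by
  have hb : Nat.beq cand 0 = false := by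
    cases h : Nat.beq cand 0
    · rfl
    · exact absurd (Nat.eq_of_beq_eq_true h) hne
  rw [loopC, hb]
  rfl

theorem loopC_complete (f : ℕ → Bool) (t : Finset ℕ) (v : ℕ)
    (hf : ∀ x, (∀ i, x.testBit i = true → i < 416) → (∀ u ∈ t, x.testBit u = true) → f x = true) :
    ∀ (fuel cand : ℕ), (∀ i, cand.testBit i = true → i < 416 ∧ 416 ≤ fuel + i) →
      cand.testBit v = true →
      (∀ u ∈ t, v < u ∧ cand.testBit u = true ∧ (nb v).testBit u = true) →
      loopC f fuel cand = true := by
  intro fuel
  induction fuel with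
  | zero =>
    intro cand hinv hv _
    have := hinv v hv
    omega
  | succ fuel ih =>
    intro cand hinv hv hs
    have hne : cand ≠ 0 := by
      rintro rfl
      simp at hv
    obtain ⟨j, hj416, hd, hjbit, hjmin⟩ := lsb_spec cand (fun i hi => (hinv i hi).1) hne
    rw [loopC_succ f fuel cand hne, hd, idx_spec hj416, Bool.or_eq_true]
    by_cases hjv : j = v
    · left
      subst hjv
      apply hf
      · intro i hi
        rw [Nat.testBit_and, Nat.testBit_xor, Nat.testBit_two_pow, Bool.and_eq_true] at hi
        by_cases hji : j = i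
        · omega
        · have : cand.testBit i = true := by simpa [hji] using hi.1
          exact (hinv i this).1
      · intro u hu
        obtain ⟨h1, h2, h3⟩ := hs u hu
        rw [Nat.testBit_and, Nat.testBit_xor, Nat.testBit_two_pow, h2, h3]
        have : ¬ j = u := by omega
        simp [this]
    · right
      have hjv' : j < v := lt_of_le_of_ne (hjmin v hv) hjv
      apply ih
      · intro i hi
        rw [Nat.testBit_xor, Nat.testBit_two_pow] at hi
        by_cases hji : j = i
        · subst hji
          simp [hjbit] at hi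
        · have hci : cand.testBit i = true := by simpa [hji] using hi
          have h1 := hinv i hci
          have h2 := hjmin i hci
          have h3 := hinv j hjbit
          omega
      · rw [Nat.testBit_xor, Nat.testBit_two_pow, hv]
        simp [hjv]
      · intro u hu
        obtain ⟨h1, h2, h3⟩ := hs u hu
        refine ⟨h1, ?_, h3⟩
        rw [Nat.testBit_xor, Nat.testBit_two_pow, h2]
        have : ¬ j = u := by omega
        simp [this]

/-- Completeness of the clique search. -/
theorem hasClique_of_clique : ∀ (k : ℕ) (s : Finset ℕ), s.card = k → ∀ cand : ℕ,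
    (∀ i, cand.testBit i = true → i < 416) → (∀ u ∈ s, cand.testBit u = true) →
    (∀ u ∈ s, ∀ w ∈ s, u < w → (nb u).testBit w = true) → hasClique k cand = true := by
  intro k
  induction k with
  | zero => intro s _ cand _ _ _; rfl
  | succ k ih =>
    intro s hcard cand hb hmem hadj
    have hne : s.Nonempty := by
      rw [← Finset.card_pos]; omega
    have hvs : s.min' hne ∈ s := Finset.min'_mem s hne
    have h1 : hasClique (k + 1) cand = loopC (hasClique k) 416 cand := rfl
    rw [h1]
    refine loopC_complete (hasClique k) (s.erase (s.min' hne)) (s.min' hne) ?_ 416 cand ?_ ?_ ?_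
    · intro x hx hxs
      refine ih (s.erase (s.min' hne)) ?_ x hx hxs ?_
      · rw [Finset.card_erase_of_mem hvs, hcard]; rfl
      · intro u hu w hw huw
        exact hadj u (Finset.mem_of_mem_erase hu) w (Finset.mem_of_mem_erase hw) huw
    · intro i hi
      exact ⟨hb i hi, by omega⟩
    · exact hmem _ hvs
    · intro u hu
      have hu' := Finset.mem_of_mem_erase hu
      have hlt : s.min' hne < u :=
        lt_of_le_of_ne (Finset.min'_le s u hu') (Ne.symm (Finset.ne_of_mem_erase hu))
      exact ⟨hlt, hmem u hu', hadj _ hvs u hu' hlt⟩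

/-- No six pairwise marked indices in the selected set. -/
theorem no_six_clique (s : Finset ℕ) (hs : ∀ u ∈ s, inS u = true)
    (hadj : ∀ u ∈ s, ∀ w ∈ s, u < w → (nb u).testBit w = true) : s.card ≤ 5 := by
  by_contra hcon
  obtain ⟨t, hts, htc⟩ := Finset.exists_subset_card_eq (show 6 ≤ s.card by omega)
  have hne : t.Nonempty := by
    rw [← Finset.card_pos]; omega
  have hvt : t.min' hne ∈ t := Finset.min'_mem t hne
  have hvS : inS (t.min' hne) = true := hs _ (hts hvt)
  have htop := top_spec (inS_lt hvS)
  unfold topOK at htop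
  simp only [hvS, cond_true] at htop
  have hfalse : hasClique 5 ((sMask >>> (t.min' hne + 1) <<< (t.min' hne + 1)) &&& nb (t.min' hne))
      = false := by
    have h2 : (not (hasClique 5 ((sMask >>> (t.min' hne + 1) <<< (t.min' hne + 1))
        &&& nb (t.min' hne)))) = true := htop
    simpa using h2
  have htrue : hasClique 5 ((sMask >>> (t.min' hne + 1) <<< (t.min' hne + 1)) &&& nb (t.min' hne))
      = true := by
    refine hasClique_of_clique 5 (t.erase (t.min' hne)) ?_ _ ?_ ?_ ?_
    · rw [Finset.card_erase_of_mem hvt, htc]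
    · intro i hi
      rw [Nat.testBit_and, Nat.testBit_shiftLeft, Nat.testBit_shiftRight, Bool.and_eq_true,
        Bool.and_eq_true, decide_eq_true_eq] at hi
      have e : t.min' hne + 1 + (i - (t.min' hne + 1)) = i := by omega
      rw [e] at hi
      exact inS_lt hi.1.2
    · intro u hu
      have hu' := Finset.mem_of_mem_erase hu
      have hlt : t.min' hne < u :=
        lt_of_le_of_ne (Finset.min'_le t u hu') (Ne.symm (Finset.ne_of_mem_erase hu))
      rw [Nat.testBit_and, Nat.testBit_shiftLeft, Nat.testBit_shiftRight, Bool.and_eq_true,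
        Bool.and_eq_true, decide_eq_true_eq]
      have e : t.min' hne + 1 + (u - (t.min' hne + 1)) = u := by omega
      rw [e]
      exact ⟨⟨by omega, hs u (hts hu')⟩, hadj _ (hts hvt) u (hts hu') hlt⟩
    · intro u hu w hw huw
      exact hadj u (hts (Finset.mem_of_mem_erase hu)) w (hts (Finset.mem_of_mem_erase hw)) huw
  rw [htrue] at hfalse
  exact Bool.noConfusion hfalse

end Vale.Agent.Lib.P052
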