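import Vale.Agent.Lib.P052.CliqueCode

namespace Vale.Agent.Lib.P052.Clq

set_option maxRecDepth 100000 in
theorem chunk_12_2 : chunk vset 2 12 = true := by decide +kernel

set_option maxRecDepth 100000 in
theorem chunk_32_3 : chunk vset 3 32 = true := by decide +kernel

set_option maxRecDepth 100000 in
theorem chunk_35_3 : chunk vset 3 35 = true := by decide +kernel

set_option maxRecDepth 100000 in
theorem chunk_97_4 : chunk vset 4 97 = true := by decide +kernel

set_option maxRecDepth 100000 in
theorem chunk_128_6 : chunk vset 6 128 = true := by decide +kernel

set_option maxRecDepth 100000 in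
theorem chunk_146_8 : chunk vset 8 146 = true := by decide +kernel

set_option maxRecDepth 100000 in
theorem chunk_163_10 : chunk vset 10 163 = true := by decide +kernel

set_option maxRecDepth 100000 in
theorem chunk_256_101 : chunk vset 101 256 = true := by decide +kernel

end Vale.Agent.Lib.P052.Clq
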