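import Vale.Agent.Lib.P052.CliqueCode

namespace Vale.Agent.Lib.P052.Clq

set_option maxRecDepth 100000 in
theorem chunk_16_2 : chunk vset 2 16 = true := by decide +kernel

set_option maxRecDepth 100000 in
theorem chunk_18_2 : chunk vset 2 18 = true := by decide +kernel

set_option maxRecDepth 100000 in
theorem chunk_41_3 : chunk vset 3 41 = true := by decide +kernel

set_option maxRecDepth 100000 in
theorem chunk_80_4 : chunk vset 4 80 = true := by decide +kernel

set_option maxRecDepth 100000 in
theorem chunk_84_4 : chunk vset 4 84 = true := by decide +kernel

set_option maxRecDepth 100000 in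
theorem chunk_92_5 : chunk vset 5 92 = true := by decide +kernel

set_option maxRecDepth 100000 in
theorem chunk_109_4 : chunk vset 4 109 = true := by decide +kernel

set_option maxRecDepth 100000 in
theorem chunk_117_5 : chunk vset 5 117 = true := by decide +kernel

set_option maxRecDepth 100000 in
theorem chunk_187_16 : chunk vset 16 187 = true := by decide +kernel

end Vale.Agent.Lib.P052.Clq
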