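import Vale.Agent.Lib.P052.CliqueCode

namespace Vale.Agent.Lib.P052.Clq

set_option maxRecDepth 100000 in
theorem chunk_14_2 : chunk vset 2 14 = true := by decide +kernel

set_option maxRecDepth 100000 in
theorem chunk_22_2 : chunk vset 2 22 = true := by decide +kernel

set_option maxRecDepth 100000 in
theorem chunk_26_3 : chunk vset 3 26 = true := by decide +kernel

set_option maxRecDepth 100000 in
theorem chunk_38_3 : chunk vset 3 38 = true := by decide +kernel

set_option maxRecDepth 100000 in
theorem chunk_54_4 : chunk vset 4 54 = true := by decide +kernel

set_option maxRecDepth 100000 in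
theorem chunk_61_3 : chunk vset 3 61 = true := by decide +kernel

set_option maxRecDepth 100000 in
theorem chunk_76_4 : chunk vset 4 76 = true := by decide +kernel

set_option maxRecDepth 100000 in
theorem chunk_105_4 : chunk vset 4 105 = true := by decide +kernel

set_option maxRecDepth 100000 in
theorem chunk_113_4 : chunk vset 4 113 = true := by decide +kernel

end Vale.Agent.Lib.P052.Clq
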