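import Vale.Agent.Lib.P052.CliqueCode

namespace Vale.Agent.Lib.P052.Clq

set_option maxRecDepth 100000 in
theorem chunk_4_2 : chunk vset 2 4 = true := by decide +kernel

set_option maxRecDepth 100000 in
theorem chunk_10_2 : chunk vset 2 10 = true := by decide +kernel

set_option maxRecDepth 100000 in
theorem chunk_24_2 : chunk vset 2 24 = true := by decide +kernel

set_option maxRecDepth 100000 in
theorem chunk_29_3 : chunk vset 3 29 = true := by decide +kernel

set_option maxRecDepth 100000 in
theorem chunk_47_3 : chunk vset 3 47 = true := by decide +kernel

set_option maxRecDepth 100000 in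
theorem chunk_64_3 : chunk vset 3 64 = true := by decide +kernel

set_option maxRecDepth 100000 in
theorem chunk_122_6 : chunk vset 6 122 = true := by decide +kernel

set_option maxRecDepth 100000 in
theorem chunk_140_6 : chunk vset 6 140 = true := by decide +kernel

set_option maxRecDepth 100000 in
theorem chunk_173_14 : chunk vset 14 173 = true := by decide +kernel

end Vale.Agent.Lib.P052.Clq
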