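import Vale.Agent.Lib.P052.CliqueCode

namespace Vale.Agent.Lib.P052.Clq

set_option maxRecDepth 100000 in
theorem chunk_0_2 : chunk vset 2 0 = true := by decide +kernel

set_option maxRecDepth 100000 in
theorem chunk_6_2 : chunk vset 2 6 = true := by decide +kernel

set_option maxRecDepth 100000 in
theorem chunk_44_3 : chunk vset 3 44 = true := by decide +kernel

set_option maxRecDepth 100000 in
theorem chunk_73_3 : chunk vset 3 73 = true := by decide +kernel

set_option maxRecDepth 100000 in
theorem chunk_88_4 : chunk vset 4 88 = true := by decide +kernel

set_option maxRecDepth 100000 in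
theorem chunk_134_6 : chunk vset 6 134 = true := by decide +kernel

set_option maxRecDepth 100000 in
theorem chunk_203_20 : chunk vset 20 203 = true := by decide +kernel

set_option maxRecDepth 100000 in
theorem chunk_223_33 : chunk vset 33 223 = true := by decide +kernel

set_option maxRecDepth 100000 in
theorem chunk_357_59 : chunk vset 59 357 = true := by decide +kernel

end Vale.Agent.Lib.P052.Clq
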