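import Vale.Agent.Lib.P052.CliqueCode

namespace Vale.Agent.Lib.P052.Clq

set_option maxRecDepth 100000 in
theorem chunk_2_2 : chunk vset 2 2 = true := by decide +kernel

set_option maxRecDepth 100000 in
theorem chunk_8_2 : chunk vset 2 8 = true := by decide +kernel

set_option maxRecDepth 100000 in
theorem chunk_20_2 : chunk vset 2 20 = true := by decide +kernel

set_option maxRecDepth 100000 in
theorem chunk_50_4 : chunk vset 4 50 = true := by decide +kernel

set_option maxRecDepth 100000 in
theorem chunk_58_3 : chunk vset 3 58 = true := by decide +kernel

set_option maxRecDepth 100000 in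
theorem chunk_67_3 : chunk vset 3 67 = true := by decide +kernel

set_option maxRecDepth 100000 in
theorem chunk_70_3 : chunk vset 3 70 = true := by decide +kernel

set_option maxRecDepth 100000 in
theorem chunk_101_4 : chunk vset 4 101 = true := by decide +kernel

set_option maxRecDepth 100000 in
theorem chunk_154_9 : chunk vset 9 154 = true := by decide +kernel

end Vale.Agent.Lib.P052.Clq
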