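import Vale.Agent.Lib.P052.CliqueCode
import Vale.Agent.Lib.P052.HermGraph

namespace Vale.Agent.Lib.P052.Clq

set_option maxRecDepth 100000 in
theorem rowsAgree_all : rowsAgree 416 0 = true := by decide +kernel

set_option maxRecDepth 100000 in
theorem listAgree_all : listAgree hermRows 0 = true := by decide +kernel

end Vale.Agent.Lib.P052.Clq
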