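import Mathlib

/-!
# A kernel-friendly check of strong regularity for a graph given by bitmask rows (P052)

A graph on the vertices `0, ..., n - 1` is given by a list `rows` of natural numbers: bit `u` of
the `v`-th entry says whether `v` and `u` are adjacent (`adjOf`).  `srgCheck rows n k lam mu`
is a Boolean test, built from recursors and the binary operations on natural numbers that the
kernel evaluates natively, and `srgCheck_sound` says what a successful test proves: adjacency is
symmetric and irreflexive, and the number of `t` with `i ~ t ~ j` is `k`, `lam` or `mu` according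
to whether `i = j`, `i ~ j` or neither.

The test works with numbers written in base `1024`: the `t`-th row is spread out to the number
with base-`1024` digits equal to its bits, the spread rows of the neighbours of `i` are added up,
and the sum is compared with the number whose digits are the expected counts.
-/

namespace Vale.Agent.Lib.P052

/-- Adjacency read off a list of bitmask rows: bit `u` of row `v`. -/
def adjOf (rows : List ℕ) (v u : ℕ) : Bool := (rows.getD v 0).testBit u

/-- The `j`-th binary digit of `x`, as a number. -/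
def bitAt (x j : ℕ) : ℕ := Nat.land (Nat.shiftRight x j) 1

lemma bitAt_eq (x j : ℕ) : bitAt x j = (x.testBit j).toNat := by
  rw [Nat.toNat_testBit]
  show (x >>> j) &&& 1 = _
  rw [Nat.and_one_is_mod, Nat.shiftRight_eq_div_pow]

lemma bitAt_le_one (x j : ℕ) : bitAt x j ≤ 1 := by
  rw [bitAt_eq]; cases x.testBit j <;> simp

lemma bitAt_eq_one_iff (x j : ℕ) : bitAt x j = 1 ↔ x.testBit j = true := by
  rw [bitAt_eq]; cases x.testBit j <;> simp

lemma bitAt_eq_zero_iff (x j : ℕ) : bitAt x j = 0 ↔ x.testBit j = false := by
  rw [bitAt_eq]; cases x.testBit j <;> simp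

/-- The number with base-`1024` digits `f 0, ..., f (n - 1)`. -/
noncomputable def dsum (f : ℕ → ℕ) (n : ℕ) : ℕ :=
  Nat.rec 0 (fun j ih => Nat.add ih (Nat.mul (f j) (Nat.pow 1024 j))) n

lemma dsum_eq (f : ℕ → ℕ) (n : ℕ) : dsum f n = ∑ j ∈ Finset.range n, f j * 1024 ^ j := by
  induction n with
  | zero => rfl
  | succ n ih =>
    rw [Finset.sum_range_succ, ← ih]
    rfl

/-- Indexed sum along a reversed list: `lsum g m [x_(m-1), ..., x_0] = ∑ t < m, g t x_t`. -/
noncomputable def lsum (g : ℕ → ℕ → ℕ) (m : ℕ) (l : List ℕ) : ℕ :=
  Nat.rec (motive := fun _ => List ℕ → ℕ) (fun _ => 0)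
    (fun t ih l => List.rec (motive := fun _ => ℕ) 0 (fun x xs _ => Nat.add (g t x) (ih xs)) l) m l

lemma lsum_succ_cons (g : ℕ → ℕ → ℕ) (m x : ℕ) (xs : List ℕ) :
    lsum g (m + 1) (x :: xs) = g m x + lsum g m xs := rfl

lemma take_succ_reverse (L : List ℕ) (m : ℕ) (hm : m < L.length) :
    (L.take (m + 1)).reverse = L.getD m 0 :: (L.take m).reverse := by
  rw [List.take_add_one, List.reverse_append]
  simp [List.getElem?_eq_getElem hm]

lemma lsum_eq (g : ℕ → ℕ → ℕ) (L : List ℕ) (m : ℕ) (hm : m ≤ L.length) :
    lsum g m (L.take m).reverse = ∑ t ∈ Finset.range m, g t (L.getD t 0) := by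
  induction m with
  | zero => rfl
  | succ m ih =>
    rw [take_succ_reverse L m hm, lsum_succ_cons, Finset.sum_range_succ,
      ih (Nat.le_of_succ_le hm), add_comm]

/-- Conjunction of `p t x_t` along a reversed list `[x_(m-1), ..., x_0]`. -/
noncomputable def allOk (p : ℕ → ℕ → Bool) (m : ℕ) (l : List ℕ) : Bool :=
  Nat.rec (motive := fun _ => List ℕ → Bool) (fun _ => true)
    (fun t ih l => List.rec (motive := fun _ => Bool) false (fun x xs _ => and (p t x) (ih xs)) l)
    m l

lemma allOk_succ_cons (p : ℕ → ℕ → Bool) (m x : ℕ) (xs : List ℕ) :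
    allOk p (m + 1) (x :: xs) = (p m x && allOk p m xs) := rfl

lemma allOk_sound (p : ℕ → ℕ → Bool) (L : List ℕ) (m : ℕ) (hm : m ≤ L.length)
    (h : allOk p m (L.take m).reverse = true) : ∀ t < m, p t (L.getD t 0) = true := by
  induction m with
  | zero => intro t ht; omega
  | succ m ih =>
    rw [take_succ_reverse L m hm, allOk_succ_cons, Bool.and_eq_true] at h
    intro t ht
    rcases Nat.lt_succ_iff_lt_or_eq.mp ht with h1 | h1
    · exact ih (Nat.le_of_succ_le hm) h.2 t h1
    · rw [h1]; exact h.1

lemma digits_lt (f : ℕ → ℕ) (n : ℕ) (hf : ∀ j < n, f j < 1024) :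
    ∑ j ∈ Finset.range n, f j * 1024 ^ j < 1024 ^ n := by
  induction n with
  | zero => simp
  | succ n ih =>
    rw [Finset.sum_range_succ, pow_succ]
    have h1 := ih (fun j hj => hf j (Nat.lt_succ_of_lt hj))
    have h2 : f n ≤ 1023 := Nat.le_of_lt_succ (hf n (Nat.lt_succ_self n))
    have h3 : f n * 1024 ^ n ≤ 1023 * 1024 ^ n := Nat.mul_le_mul_right _ h2
    omega

lemma digits_inj (f g : ℕ → ℕ) (n : ℕ) (hf : ∀ j < n, f j < 1024) (hg : ∀ j < n, g j < 1024)
    (h : ∑ j ∈ Finset.range n, f j * 1024 ^ j = ∑ j ∈ Finset.range n, g j * 1024 ^ j) :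
    ∀ j < n, f j = g j := by
  induction n with
  | zero => intro j hj; omega
  | succ n ih =>
    rw [Finset.sum_range_succ, Finset.sum_range_succ] at h
    have hf' := digits_lt f n (fun j hj => hf j (Nat.lt_succ_of_lt hj))
    have hg' := digits_lt g n (fun j hj => hg j (Nat.lt_succ_of_lt hj))
    have hpos : 0 < 1024 ^ n := by positivity
    have e1 : f n = g n := by
      have h' : (∑ j ∈ Finset.range n, f j * 1024 ^ j + f n * 1024 ^ n) / 1024 ^ n
          = (∑ j ∈ Finset.range n, g j * 1024 ^ j + g n * 1024 ^ n) / 1024 ^ n := by rw [h]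
      rwa [Nat.add_mul_div_right _ _ hpos, Nat.add_mul_div_right _ _ hpos,
        Nat.div_eq_of_lt hf', Nat.div_eq_of_lt hg', zero_add, zero_add] at h'
    have e2 : ∑ j ∈ Finset.range n, f j * 1024 ^ j = ∑ j ∈ Finset.range n, g j * 1024 ^ j := by
      rw [e1] at h; exact Nat.add_right_cancel h
    intro j hj
    rcases Nat.lt_succ_iff_lt_or_eq.mp hj with h1 | h1
    · exact ih (fun j hj => hf j (Nat.lt_succ_of_lt hj)) (fun j hj => hg j (Nat.lt_succ_of_lt hj))
        e2 j h1
    · rw [h1]; exact e1

/-- The first `n` bits of `x`, spread out as base-`1024` digits. -/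
noncomputable def spread (n x : ℕ) : ℕ := dsum (fun j => bitAt x j) n

/-- The number whose base-`1024` digits are the expected numbers of common neighbours of the
vertex `i` (with row `x`) and the vertices `j < n`. -/
noncomputable def expect (n k lam mu i x : ℕ) : ℕ :=
  dsum (fun j => cond (Nat.beq j i) k (cond (Nat.beq (bitAt x j) 1) lam mu)) n

/-- The test for the vertex `i` with row `r`; `rrev` and `srev` are the reversed lists of the
rows and of the spread rows. -/
noncomputable def rowOk (n k lam mu : ℕ) (rrev srev : List ℕ) (i r : ℕ) : Bool :=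
  and (Nat.beq (bitAt r i) 0)
   (and (Nat.beq (lsum (fun t y => Nat.mul (bitAt y i) (Nat.pow 1024 t)) n rrev) (spread n r))
        (Nat.beq (lsum (fun t s => cond (Nat.beq (bitAt r t) 1) s 0) n srev)
          (expect n k lam mu i r)))

/-- The Boolean test of strong regularity with parameters `(n, k, lam, mu)`. -/
noncomputable def srgCheck (rows : List ℕ) (n k lam mu : ℕ) : Bool :=
  and (Nat.beq rows.length n) (and (Nat.blt n 1024) (and (Nat.blt k 1024) (and (Nat.blt lam 1024)
    (and (Nat.blt mu 1024)
    (allOk (rowOk n k lam mu rows.reverse (rows.map (spread n)).reverse) n rows.reverse)))))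

lemma getD_map_spread (rows : List ℕ) (n t : ℕ) (ht : t < rows.length) :
    (rows.map (spread n)).getD t 0 = spread n (rows.getD t 0) := by
  rw [List.getD_eq_getElem _ _ (by simpa using ht), List.getD_eq_getElem _ _ ht, List.getElem_map]

theorem srgCheck_sound {rows : List ℕ} {n k lam mu : ℕ} (h : srgCheck rows n k lam mu = true) :
    (∀ i j, i < n → j < n → adjOf rows i j = adjOf rows j i) ∧
    (∀ i, i < n → adjOf rows i i = false) ∧
    (∀ i j, i < n → j < n →
      ((Finset.range n).filter (fun t => adjOf rows i t = true ∧ adjOf rows t j = true)).card =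
        if i = j then k else if adjOf rows i j = true then lam else mu) := by
  unfold srgCheck at h
  simp only [Bool.and_eq_true] at h
  obtain ⟨hlen, hn, hk, hlam, hmu, hall⟩ := h
  have hlen' : rows.length = n := Nat.eq_of_beq_eq_true hlen
  have hn' : n < 1024 := by simpa [Nat.blt_eq] using hn
  have hk' : k < 1024 := by simpa [Nat.blt_eq] using hk
  have hlam' : lam < 1024 := by simpa [Nat.blt_eq] using hlam
  have hmu' : mu < 1024 := by simpa [Nat.blt_eq] using hmu
  subst hlen'
  set n := rows.length with hn_def
  set a : ℕ → ℕ → ℕ := fun i j => bitAt (rows.getD i 0) j with ha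
  have a_le : ∀ i j, a i j ≤ 1 := fun i j => bitAt_le_one _ _
  have a_adj : ∀ i j, adjOf rows i j = true ↔ a i j = 1 := fun i j =>
    (bitAt_eq_one_iff _ _).symm
  have hrev : rows.reverse = (rows.take n).reverse := by rw [hn_def, List.take_length]
  have hsrev : (rows.map (spread n)).reverse
      = ((rows.map (spread n)).take n).reverse := by
    rw [List.take_of_length_le (by simp [hn_def])]
  rw [hrev] at hall
  have key := allOk_sound _ rows n le_rfl hall
  have H : ∀ i < n, a i i = 0 ∧ (∀ t < n, a t i = a i t) ∧
      (∀ j < n, ∑ t ∈ Finset.range n, a i t * a t j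
        = if j = i then k else if a i j = 1 then lam else mu) := by
    intro i hi
    have hrow := key i hi
    unfold rowOk at hrow
    simp only [Bool.and_eq_true] at hrow
    obtain ⟨h1, h2, h3⟩ := hrow
    have h1' : a i i = 0 := Nat.eq_of_beq_eq_true h1
    have h2' := Nat.eq_of_beq_eq_true h2
    have h3' := Nat.eq_of_beq_eq_true h3
    refine ⟨h1', ?_, ?_⟩
    · rw [lsum_eq _ rows n le_rfl] at h2'
      unfold spread at h2'
      rw [dsum_eq] at h2'
      exact digits_inj (fun t => a t i) (fun t => a i t) n
        (fun t _ => lt_of_le_of_lt (a_le t i) (by norm_num))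
        (fun t _ => lt_of_le_of_lt (a_le i t) (by norm_num)) h2'
    · rw [hsrev, lsum_eq _ _ n (by simp [hn_def])] at h3'
      unfold expect at h3'
      rw [dsum_eq] at h3'
      have e1 : ∑ t ∈ Finset.range n,
          cond (Nat.beq (bitAt (rows.getD i 0) t) 1) ((rows.map (spread n)).getD t 0) 0
          = ∑ j ∈ Finset.range n, (∑ t ∈ Finset.range n, a i t * a t j) * 1024 ^ j := by
        have e0 : ∀ t ∈ Finset.range n,
            cond (Nat.beq (bitAt (rows.getD i 0) t) 1) ((rows.map (spread n)).getD t 0) 0
            = ∑ j ∈ Finset.range n, a i t * a t j * 1024 ^ j := by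
          intro t ht
          rw [getD_map_spread rows n t (Finset.mem_range.mp ht)]
          unfold spread
          rw [dsum_eq]
          have hle := a_le i t
          rcases Nat.le_one_iff_eq_zero_or_eq_one.mp hle with h0 | h0
          · have hb : Nat.beq (bitAt (rows.getD i 0) t) 1 = false := by
              show Nat.beq (a i t) 1 = false
              rw [h0]; rfl
            rw [hb, cond_false]
            symm
            apply Finset.sum_eq_zero
            intro j _
            rw [h0, zero_mul, zero_mul]
          · have hb : Nat.beq (bitAt (rows.getD i 0) t) 1 = true := by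
              show Nat.beq (a i t) 1 = true
              rw [h0]; rfl
            rw [hb, cond_true]
            refine Finset.sum_congr rfl (fun j _ => ?_)
            rw [h0, one_mul]
        rw [Finset.sum_congr rfl e0, Finset.sum_comm]
        refine Finset.sum_congr rfl (fun j _ => ?_)
        rw [Finset.sum_mul]
      rw [e1] at h3'
      have hdig := digits_inj (fun j => ∑ t ∈ Finset.range n, a i t * a t j)
        (fun j => cond (Nat.beq j i) k (cond (Nat.beq (bitAt (rows.getD i 0) j) 1) lam mu)) n
        (fun j _ => by
          have : ∑ t ∈ Finset.range n, a i t * a t j ≤ ∑ _t ∈ Finset.range n, 1 :=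
            Finset.sum_le_sum (fun t _ => by
              have h1 := a_le i t
              have h2 := a_le t j
              calc a i t * a t j ≤ 1 * 1 := Nat.mul_le_mul h1 h2
                _ = 1 := rfl)
          simp at this
          omega)
        (fun j _ => by
          cases Nat.beq j i <;> cases Nat.beq (bitAt (rows.getD i 0) j) 1 <;> simpa)
        h3'
      intro j hj
      rw [hdig j hj]
      by_cases hji : j = i
      · have : Nat.beq j i = true := by rw [hji]; exact Nat.beq_refl i
        simp [hji]
      · have : Nat.beq j i = false := by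
          cases hb : Nat.beq j i
          · rfl
          · exact absurd (Nat.eq_of_beq_eq_true hb) hji
        rw [this]
        simp only [cond_false, if_neg hji]
        by_cases haij : a i j = 1
        · have hb : Nat.beq (bitAt (rows.getD i 0) j) 1 = true := by
            show Nat.beq (a i j) 1 = true
            rw [haij]; rfl
          rw [hb]; simp [haij]
        · have hb : Nat.beq (bitAt (rows.getD i 0) j) 1 = false := by
            cases hb : Nat.beq (bitAt (rows.getD i 0) j) 1
            · rfl
            · exact absurd (Nat.eq_of_beq_eq_true hb) haij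
          rw [hb]; simp [haij]
  have adj_false : ∀ i j, adjOf rows i j = false ↔ a i j = 0 := fun i j =>
    (bitAt_eq_zero_iff _ _).symm
  refine ⟨?_, ?_, ?_⟩
  · intro i j hi hj
    have hsym : a i j = a j i := ((H j hj).2.1 i hi)
    cases hb : adjOf rows j i
    · rw [adj_false] at hb ⊢; rw [hsym, hb]
    · rw [a_adj] at hb ⊢; rw [hsym, hb]
  · intro i hi
    rw [adj_false]; exact (H i hi).1
  · intro i j hi hj
    rw [Finset.card_filter]
    have e : ∀ t ∈ Finset.range n,
        (if adjOf rows i t = true ∧ adjOf rows t j = true then 1 else 0) = a i t * a t j := by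
      intro t _
      simp only [a_adj]
      rcases Nat.le_one_iff_eq_zero_or_eq_one.mp (a_le i t) with h0 | h0 <;>
        rcases Nat.le_one_iff_eq_zero_or_eq_one.mp (a_le t j) with h1 | h1 <;> simp [h0, h1]
    rw [Finset.sum_congr rfl e, (H i hi).2.2 j hj]
    by_cases hij : i = j
    · simp [hij]
    · rw [if_neg hij, if_neg (fun h => hij h.symm)]
      by_cases haij : a i j = 1
      · rw [if_pos haij, if_pos ((a_adj i j).mpr haij)]
      · rw [if_neg haij, if_neg (fun h => haij ((a_adj i j).mp h))]

end Vale.Agent.Lib.P052
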