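import Mathlib
import Vale.Agent.Lib.P052.Srg
import Vale.Agent.Lib.P052.HermGraph
import Vale.Agent.Lib.P052.CliqueData
import Vale.Agent.Lib.P052.CliqueChunk0
import Vale.Agent.Lib.P052.CliqueChunk1
import Vale.Agent.Lib.P052.CliqueChunk2
import Vale.Agent.Lib.P052.CliqueChunk3
import Vale.Agent.Lib.P052.CliqueChunk4
import Vale.Agent.Lib.P052.CliqueChunk5

/-!
# The graph `hermRows` has no clique of size six (P052)

Soundness of the kernel search of `CliqueCode`: a depth-first enumeration of the cliques in
increasing order of vertices, on bit masks.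
-/

namespace Vale.Agent.Lib.P052.Clq

set_option exponentiation.threshold 500

theorem two416_eq : two416 = 2 ^ 416 := by decide

theorem mask416_eq : mask416 = 2 ^ 416 - 1 := by decide

theorem vset_eq : vset = 2 ^ 416 - 1 := by decide

theorem rowF_lt (v : ℕ) : rowF v < 2 ^ 416 := by
  have h : rowF v ≤ mask416 := Nat.and_le_right
  rw [mask416_eq] at h
  have : 0 < 2 ^ 416 := Nat.two_pow_pos 416
  omega

theorem rowsAgree_succ (n a : ℕ) : rowsAgree (n + 1) a =
    (match Nat.beq (rowH ((1 <<< a) % 419)) (rowF a) with
      | true => rowsAgree n (a + 1)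
      | false => false) := rfl

theorem rowsAgree_spec : ∀ n a, rowsAgree n a = true →
    ∀ v, a ≤ v → v < a + n → rowH ((1 <<< v) % 419) = rowF v := by
  intro n
  induction n with
  | zero =>
    intro a _ v h1 h2
    omega
  | succ n ih =>
    intro a h v h1 h2
    rw [rowsAgree_succ] at h
    cases hb : Nat.beq (rowH ((1 <<< a) % 419)) (rowF a) with
    | false =>
      rw [hb] at h
      exact absurd h Bool.false_ne_true
    | true =>
      rw [hb] at h
      rcases Nat.eq_or_lt_of_le h1 with rfl | hlt
      · exact Nat.eq_of_beq_eq_true hb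
      · exact ih (a + 1) h v hlt (by omega)

theorem listAgree_cons (r : ℕ) (l : List ℕ) (i : ℕ) : listAgree (r :: l) i =
    (match Nat.beq (rowF i) r with
      | true => listAgree l (i + 1)
      | false => false) := rfl

theorem listAgree_spec : ∀ (l : List ℕ) (i : ℕ), listAgree l i = true →
    ∀ j, j < l.length → rowF (i + j) = l.getD j 0 := by
  intro l
  induction l with
  | nil =>
    intro i _ j hj
    simp at hj
  | cons r l ih =>
    intro i h j hj
    rw [listAgree_cons] at h
    cases hb : Nat.beq (rowF i) r with
    | false =>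
      rw [hb] at h
      exact absurd h Bool.false_ne_true
    | true =>
      rw [hb] at h
      cases j with
      | zero =>
        simpa using Nat.eq_of_beq_eq_true hb
      | succ j =>
        have := ih (i + 1) h j (by simpa using hj)
        simpa [Nat.add_assoc, Nat.add_comm 1 j] using this

set_option maxRecDepth 100000 in
theorem rows_length : hermRows.length = 416 := by decide +kernel

theorem rowF_testBit (v u : ℕ) (hv : v < 416) :
    (rowF v).testBit u = adjOf hermRows v u := by
  have h := listAgree_spec hermRows 0 listAgree_all v (by rw [rows_length]; exact hv)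
  rw [Nat.zero_add] at h
  rw [h]
  rfl

theorem exists_low (cand : ℕ) (h0 : cand ≠ 0) (hlt : cand < 2 ^ 416) :
    ∃ v, v < 416 ∧ Nat.gcd cand two416 = 2 ^ v ∧ cand.testBit v = true := by
  obtain ⟨k, m, hodd, rfl⟩ := Nat.exists_eq_two_pow_mul_odd h0
  have hk : k < 416 := by
    by_contra hk
    have hk' : 416 ≤ k := Nat.le_of_not_lt hk
    have h1 : 2 ^ 416 ≤ 2 ^ k := Nat.pow_le_pow_right (by norm_num) hk'
    have h2 : 2 ^ k ≤ 2 ^ k * m := Nat.le_mul_of_pos_right _ hodd.pos
    omega
  refine ⟨k, hk, ?_, ?_⟩
  · rw [two416_eq]
    have e : (2 : ℕ) ^ 416 = 2 ^ k * 2 ^ (416 - k) := by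
      rw [← pow_add]
      congr 1
      omega
    rw [e, Nat.gcd_mul_left]
    have hc : Nat.gcd m (2 ^ (416 - k)) = 1 :=
      Nat.Coprime.pow_right _ hodd.coprime_two_right
    rw [hc, mul_one]
  · rw [Nat.testBit_two_pow_mul]
    simp [Nat.testBit_zero, Nat.odd_iff.mp hodd]

/-- Every clique of the graph inside the set of bits of `cand` has at most `k` vertices. -/
def Good (k cand : ℕ) : Prop :=
  ∀ S : Finset ℕ, (∀ u ∈ S, cand.testBit u = true) →
    (∀ i ∈ S, ∀ j ∈ S, i ≠ j → adjOf hermRows i j = true) → S.card ≤ k

theorem good_zero (k : ℕ) : Good k 0 := by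
  intro S hS _
  have hS' : S = ∅ := by
    apply Finset.eq_empty_of_forall_notMem
    intro u hu
    have := hS u hu
    simp at this
  simp [hS']

theorem loop_zero (f : ℕ → Bool) (cand : ℕ) : loop f 0 cand = Nat.beq cand 0 := rfl

theorem loop_succ (f : ℕ → Bool) (n cand : ℕ) : loop f (n + 1) cand =
    (match Nat.beq cand 0 with
      | true => true
      | false =>
        match Nat.beq (cand ^^^ Nat.gcd cand two416) 0 with
        | true => true
        | false =>
          match f ((cand ^^^ Nat.gcd cand two416) &&& rowH (Nat.gcd cand two416 % 419)) with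
          | true => loop f n (cand ^^^ Nat.gcd cand two416)
          | false => false) := rfl

theorem xor_testBit (cand v u : ℕ) (hbit : cand.testBit v = true) :
    (cand ^^^ 2 ^ v).testBit u = (cand.testBit u && decide (u ≠ v)) := by
  rw [Nat.testBit_xor, Nat.testBit_two_pow]
  by_cases h : v = u
  · subst h
    simp [hbit]
  · have h' : u ≠ v := fun e => h e.symm
    simp [h, h']

theorem loop_good (f : ℕ → Bool) (k : ℕ)
    (hf : ∀ c, c < 2 ^ 416 → f c = true → Good k c) :
    ∀ fuel cand, cand < 2 ^ 416 → loop f fuel cand = true → Good (k + 1) cand := by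
  intro fuel
  induction fuel with
  | zero =>
    intro cand _ h
    rw [loop_zero] at h
    have h0 : cand = 0 := Nat.eq_of_beq_eq_true h
    subst h0
    exact good_zero _
  | succ n ih =>
    intro cand hlt h
    rw [loop_succ] at h
    cases hb : Nat.beq cand 0 with
    | true =>
      have h0 : cand = 0 := Nat.eq_of_beq_eq_true hb
      subst h0
      exact good_zero _
    | false =>
      rw [hb] at h
      have hne : cand ≠ 0 := by
        intro e
        subst e
        exact absurd hb (by decide)
      obtain ⟨v, hv, hg, hbit⟩ := exists_low cand hne hlt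
      rw [hg] at h
      have hrest_lt : cand ^^^ 2 ^ v < 2 ^ 416 :=
        Nat.xor_lt_two_pow hlt (Nat.pow_lt_pow_right (by norm_num) hv)
      cases hr : Nat.beq (cand ^^^ 2 ^ v) 0 with
      | true =>
        have hr0 : cand ^^^ 2 ^ v = 0 := Nat.eq_of_beq_eq_true hr
        intro S hS _
        have hsub : S ⊆ {v} := by
          intro u hu
          have h1 := hS u hu
          have h2 := xor_testBit cand v u hbit
          rw [hr0, h1] at h2
          simp at h2
          simp [h2]
        have hcard := Finset.card_le_card hsub
        simp at hcard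
        omega
      | false =>
        rw [hr] at h
        cases hfv : f ((cand ^^^ 2 ^ v) &&& rowH (2 ^ v % 419)) with
        | false =>
          rw [hfv] at h
          exact absurd h Bool.false_ne_true
        | true =>
          rw [hfv] at h
          have hrow : rowH (2 ^ v % 419) = rowF v := by
            have := rowsAgree_spec 416 0 rowsAgree_all v (Nat.zero_le _) (by omega)
            rwa [Nat.one_shiftLeft] at this
          have hG1 : Good k ((cand ^^^ 2 ^ v) &&& rowF v) := by
            rw [← hrow]
            exact hf _ (lt_of_le_of_lt Nat.and_le_left hrest_lt) hfv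
          have hG2 : Good (k + 1) (cand ^^^ 2 ^ v) := ih _ hrest_lt h
          intro S hS hclq
          by_cases hvS : v ∈ S
          · have hc : (S.erase v).card ≤ k := by
              apply hG1 (S.erase v)
              · intro u hu
                have hu' := Finset.mem_erase.mp hu
                rw [Nat.testBit_and, xor_testBit cand v u hbit, hS u hu'.2, rowF_testBit v u hv,
                  hclq v hvS u hu'.2 (Ne.symm hu'.1)]
                simp [hu'.1]
              · intro i hi j hj hij
                exact hclq i (Finset.mem_of_mem_erase hi) j (Finset.mem_of_mem_erase hj) hij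
            rw [← Finset.card_erase_add_one hvS]
            omega
          · apply hG2 S
            · intro u hu
              have hne' : u ≠ v := fun e => hvS (e ▸ hu)
              rw [xor_testBit cand v u hbit, hS u hu]
              simp [hne']
            · exact hclq

theorem c5_good : ∀ c, c < 2 ^ 416 → c5 c = true → Good 0 c := by
  intro c _ h
  have h0 : c = 0 := Nat.eq_of_beq_eq_true h
  subst h0
  exact good_zero _

theorem c4_good : ∀ c, c < 2 ^ 416 → c4 c = true → Good 1 c := loop_good c5 0 c5_good 416

theorem c3_good : ∀ c, c < 2 ^ 416 → c3 c = true → Good 2 c := loop_good c4 1 c4_good 416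

theorem c2_good : ∀ c, c < 2 ^ 416 → c2 c = true → Good 3 c := loop_good c3 2 c3_good 416

theorem c1_good : ∀ c, c < 2 ^ 416 → c1 c = true → Good 4 c := loop_good c2 3 c2_good 416

theorem top_good (s v : ℕ) (h : top s v = true) :
    Good 4 (((s >>> (v + 1)) <<< (v + 1)) &&& rowF v) :=
  c1_good _ (lt_of_le_of_lt Nat.and_le_right (rowF_lt v)) h

theorem chunk_succ (s n a : ℕ) : chunk s (n + 1) a =
    (match top s a with
      | true => chunk s n (a + 1)
      | false => false) := rfl

theorem chunk_spec : ∀ (s n a : ℕ), chunk s n a = true →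
    ∀ v, a ≤ v → v < a + n → top s v = true := by
  intro s n
  induction n with
  | zero =>
    intro a _ v h1 h2
    omega
  | succ n ih =>
    intro a h v h1 h2
    rw [chunk_succ] at h
    cases hb : top s a with
    | false =>
      rw [hb] at h
      exact absurd h Bool.false_ne_true
    | true =>
      rw [hb] at h
      rcases Nat.eq_or_lt_of_le h1 with rfl | hlt
      · exact hb
      · exact ih (a + 1) h v hlt (by omega)

theorem top_all (v : ℕ) (hv : v < 416) : top vset v = true := by
  by_cases h0 : v < 2
  · exact chunk_spec vset 2 0 chunk_0_2 v (by omega) (by omega)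
  by_cases h1 : v < 4
  · exact chunk_spec vset 2 2 chunk_2_2 v (by omega) (by omega)
  by_cases h2 : v < 6
  · exact chunk_spec vset 2 4 chunk_4_2 v (by omega) (by omega)
  by_cases h3 : v < 8
  · exact chunk_spec vset 2 6 chunk_6_2 v (by omega) (by omega)
  by_cases h4 : v < 10
  · exact chunk_spec vset 2 8 chunk_8_2 v (by omega) (by omega)
  by_cases h5 : v < 12
  · exact chunk_spec vset 2 10 chunk_10_2 v (by omega) (by omega)
  by_cases h6 : v < 14
  · exact chunk_spec vset 2 12 chunk_12_2 v (by omega) (by omega)
  by_cases h7 : v < 16
  · exact chunk_spec vset 2 14 chunk_14_2 v (by omega) (by omega)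
  by_cases h8 : v < 18
  · exact chunk_spec vset 2 16 chunk_16_2 v (by omega) (by omega)
  by_cases h9 : v < 20
  · exact chunk_spec vset 2 18 chunk_18_2 v (by omega) (by omega)
  by_cases h10 : v < 22
  · exact chunk_spec vset 2 20 chunk_20_2 v (by omega) (by omega)
  by_cases h11 : v < 24
  · exact chunk_spec vset 2 22 chunk_22_2 v (by omega) (by omega)
  by_cases h12 : v < 26
  · exact chunk_spec vset 2 24 chunk_24_2 v (by omega) (by omega)
  by_cases h13 : v < 29
  · exact chunk_spec vset 3 26 chunk_26_3 v (by omega) (by omega)
  by_cases h14 : v < 32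
  · exact chunk_spec vset 3 29 chunk_29_3 v (by omega) (by omega)
  by_cases h15 : v < 35
  · exact chunk_spec vset 3 32 chunk_32_3 v (by omega) (by omega)
  by_cases h16 : v < 38
  · exact chunk_spec vset 3 35 chunk_35_3 v (by omega) (by omega)
  by_cases h17 : v < 41
  · exact chunk_spec vset 3 38 chunk_38_3 v (by omega) (by omega)
  by_cases h18 : v < 44
  · exact chunk_spec vset 3 41 chunk_41_3 v (by omega) (by omega)
  by_cases h19 : v < 47
  · exact chunk_spec vset 3 44 chunk_44_3 v (by omega) (by omega)
  by_cases h20 : v < 50
  · exact chunk_spec vset 3 47 chunk_47_3 v (by omega) (by omega)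
  by_cases h21 : v < 54
  · exact chunk_spec vset 4 50 chunk_50_4 v (by omega) (by omega)
  by_cases h22 : v < 58
  · exact chunk_spec vset 4 54 chunk_54_4 v (by omega) (by omega)
  by_cases h23 : v < 61
  · exact chunk_spec vset 3 58 chunk_58_3 v (by omega) (by omega)
  by_cases h24 : v < 64
  · exact chunk_spec vset 3 61 chunk_61_3 v (by omega) (by omega)
  by_cases h25 : v < 67
  · exact chunk_spec vset 3 64 chunk_64_3 v (by omega) (by omega)
  by_cases h26 : v < 70
  · exact chunk_spec vset 3 67 chunk_67_3 v (by omega) (by omega)
  by_cases h27 : v < 73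
  · exact chunk_spec vset 3 70 chunk_70_3 v (by omega) (by omega)
  by_cases h28 : v < 76
  · exact chunk_spec vset 3 73 chunk_73_3 v (by omega) (by omega)
  by_cases h29 : v < 80
  · exact chunk_spec vset 4 76 chunk_76_4 v (by omega) (by omega)
  by_cases h30 : v < 84
  · exact chunk_spec vset 4 80 chunk_80_4 v (by omega) (by omega)
  by_cases h31 : v < 88
  · exact chunk_spec vset 4 84 chunk_84_4 v (by omega) (by omega)
  by_cases h32 : v < 92
  · exact chunk_spec vset 4 88 chunk_88_4 v (by omega) (by omega)
  by_cases h33 : v < 97
  · exact chunk_spec vset 5 92 chunk_92_5 v (by omega) (by omega)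
  by_cases h34 : v < 101
  · exact chunk_spec vset 4 97 chunk_97_4 v (by omega) (by omega)
  by_cases h35 : v < 105
  · exact chunk_spec vset 4 101 chunk_101_4 v (by omega) (by omega)
  by_cases h36 : v < 109
  · exact chunk_spec vset 4 105 chunk_105_4 v (by omega) (by omega)
  by_cases h37 : v < 113
  · exact chunk_spec vset 4 109 chunk_109_4 v (by omega) (by omega)
  by_cases h38 : v < 117
  · exact chunk_spec vset 4 113 chunk_113_4 v (by omega) (by omega)
  by_cases h39 : v < 122
  · exact chunk_spec vset 5 117 chunk_117_5 v (by omega) (by omega)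
  by_cases h40 : v < 128
  · exact chunk_spec vset 6 122 chunk_122_6 v (by omega) (by omega)
  by_cases h41 : v < 134
  · exact chunk_spec vset 6 128 chunk_128_6 v (by omega) (by omega)
  by_cases h42 : v < 140
  · exact chunk_spec vset 6 134 chunk_134_6 v (by omega) (by omega)
  by_cases h43 : v < 146
  · exact chunk_spec vset 6 140 chunk_140_6 v (by omega) (by omega)
  by_cases h44 : v < 154
  · exact chunk_spec vset 8 146 chunk_146_8 v (by omega) (by omega)
  by_cases h45 : v < 163
  · exact chunk_spec vset 9 154 chunk_154_9 v (by omega) (by omega)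
  by_cases h46 : v < 173
  · exact chunk_spec vset 10 163 chunk_163_10 v (by omega) (by omega)
  by_cases h47 : v < 187
  · exact chunk_spec vset 14 173 chunk_173_14 v (by omega) (by omega)
  by_cases h48 : v < 203
  · exact chunk_spec vset 16 187 chunk_187_16 v (by omega) (by omega)
  by_cases h49 : v < 223
  · exact chunk_spec vset 20 203 chunk_203_20 v (by omega) (by omega)
  by_cases h50 : v < 256
  · exact chunk_spec vset 33 223 chunk_223_33 v (by omega) (by omega)
  by_cases h51 : v < 357
  · exact chunk_spec vset 101 256 chunk_256_101 v (by omega) (by omega)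
  by_cases h52 : v < 416
  · exact chunk_spec vset 59 357 chunk_357_59 v (by omega) (by omega)
  omega

/-- The graph `hermRows` has no clique with more than five vertices among the vertices
`0, ..., 416 - 1`. -/
theorem noClique6_herm : ∀ S : Finset ℕ, (∀ i ∈ S, i < 416) →
    (∀ i ∈ S, ∀ j ∈ S, i ≠ j → adjOf hermRows i j = true) → S.card ≤ 5 := by
  intro S hS hclq
  rcases S.eq_empty_or_nonempty with rfl | hne
  · simp
  · have hmS : S.min' hne ∈ S := Finset.min'_mem S hne
    have hm416 : S.min' hne < 416 := lt_of_lt_of_le (hS _ hmS) (by norm_num)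
    have hG := top_good vset (S.min' hne) (top_all _ hm416)
    have hc : (S.erase (S.min' hne)).card ≤ 4 := by
      apply hG
      · intro u hu
        have hu' := Finset.mem_erase.mp hu
        have hlt : S.min' hne < u :=
          lt_of_le_of_ne (Finset.min'_le S u hu'.2) (Ne.symm hu'.1)
        have hu416 : u < 416 := hS u hu'.2
        rw [Nat.testBit_and, Nat.testBit_shiftLeft, Nat.testBit_shiftRight,
          rowF_testBit _ u hm416, hclq _ hmS u hu'.2 (Ne.symm hu'.1), vset_eq,
          Nat.testBit_two_pow_sub_one]
        have e : S.min' hne + 1 + (u - (S.min' hne + 1)) = u := by omega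
        rw [e]
        simp
        omega
      · intro i hi j hj hij
        exact hclq i (Finset.mem_of_mem_erase hi) j (Finset.mem_of_mem_erase hj) hij
    rw [← Finset.card_erase_add_one hmS]
    omega

end Vale.Agent.Lib.P052.Clq
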