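namespace Vale.Agent.Lib.P052

/-!
Clique search on a graph with at most 418 vertices, written with the arithmetic of natural
numbers only, so that the kernel can run it.

The graph is one number `big`: the vertices `v` and `u` are adjacent when bit `v * w + u` of
`big` is set (`w` is the number of vertices).  A set of vertices is a number (bit `v` is set when
`v` is a member).
-/

/-- Adjacency of `v` and `u` in the graph `big` on `w` vertices. -/
def adjB (big w v u : Nat) : Bool := Nat.testBit big (v * w + u)

/-- Table of discrete logarithms modulo 419: for `v < 418`, the nine bits of `dtab` from bit
`9 * (2 ^ v % 419 - 1)` on are the binary digits of `v`. -/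
def dtab : Nat := 12206015457431321187167166366113206226209827604024571660286268353797448953393038162756742008222635267399447807917314847199340124040212804690437698005866556706100723917090020795365674484277682081074279396720716791345694881318671721211027334642463796153170771100855931562920725297826117704142084944700125814841917350262569191003758195898685998072674490798614735165015295916554201114891697553004691784427592091328081779986661632171814585709585397903587333444167038459497631738397759902557193520862233038632358055024711706518205893169779243674233956999456201274877810325356571275274972271839833181796400694095701051037849889544092653044357406106016807035535793604133512602864475804281698154325947808275498216398353916699224502352328214540712192929498397355098790361378715843574700367603613786416930149378585296005226286243357501120778044248539188402217827206055024317240968198652824161819321739459266025474373734216002388285723384189164821658427122951490580526694733898209870787838302839536763014479989313822964438364794964815694227079653382967802532886096542964160534412465073965016063965272462972784029661604810621730682452761249841664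

/-- The `v < 418` with `2 ^ v % 419 = h + 1`. -/
def dlog (h : Nat) : Nat := Nat.land (Nat.shiftRight dtab (Nat.mul h 9)) 511

/-- The row of the vertex `dlog h`: bit `u` is the adjacency of `dlog h` and `u`. -/
def rowN (big w h : Nat) : Nat := Nat.shiftRight big (Nat.mul (dlog h) w)

/-- One round of the search.  The lowest member `v` of `cand` is removed, which leaves `c`;
`F` is asked about the members of `c` adjacent to `v`, and then the search goes on with `c`. -/
noncomputable def stepN (big w : Nat) (F : Nat → Bool) : Nat → (Nat → Bool) → Nat → Bool :=
  fun _ ih cand =>
    (fun c => Nat.rec (motive := fun _ => Bool) true
        (fun h _ => Bool.rec (motive := fun _ => Bool) false (ih c)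
          (F (Nat.land c (rowN big w h))))
        (Nat.mod (Nat.sub cand c) 419))
      (Nat.land cand (Nat.sub cand 1))

/-- `loopN big w F fuel cand`: for every member `v` of `cand`, `F` holds of the set of the
higher members of `cand` adjacent to `v` (at most `fuel` rounds). -/
noncomputable def loopN (big w : Nat) (F : Nat → Bool) (fuel : Nat) : Nat → Bool :=
  Nat.rec (motive := fun _ => Nat → Bool) (fun cand => Nat.beq cand 0) (stepN big w F) fuel

/-- The set is empty. -/
def isZero (cand : Nat) : Bool := Nat.beq cand 0

/-- No five members of `cand` are pairwise adjacent. -/
noncomputable def noCl5 (big w fuel : Nat) : Nat → Bool :=
  loopN big w (loopN big w (loopN big w (loopN big w isZero fuel) fuel) fuel) fuel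

/-- As `stepN`, but the search stops at the first member `v` with `lim ≤ 2 ^ v`. -/
noncomputable def stepT (big w : Nat) (F : Nat → Bool) (lim : Nat) :
    Nat → (Nat → Bool) → Nat → Bool :=
  fun _ ih cand =>
    (fun c => Bool.rec (motive := fun _ => Bool)
        (Nat.rec (motive := fun _ => Bool) true
          (fun h _ => Bool.rec (motive := fun _ => Bool) false (ih c)
            (F (Nat.land c (rowN big w h))))
          (Nat.mod (Nat.sub cand c) 419))
        true
        (Nat.ble lim (Nat.sub cand c)))
      (Nat.land cand (Nat.sub cand 1))

/-- `loopT big w F lim fuel cand`: for every member `v` of `cand` with `2 ^ v < lim`, `F` holds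
of the set of the higher members of `cand` adjacent to `v`. -/
noncomputable def loopT (big w : Nat) (F : Nat → Bool) (lim fuel : Nat) : Nat → Bool :=
  Nat.rec (motive := fun _ => Nat → Bool) (fun cand => Nat.beq cand 0) (stepT big w F lim) fuel

/-- The members of `mask` that are at least `b`. -/
def lowCut (mask b : Nat) : Nat := Nat.shiftLeft (Nat.shiftRight mask b) b

/-- One piece of the search for six pairwise adjacent members of `mask`: the lowest of the six
is at least `lo` and below `hi`. -/
noncomputable def piece6 (big w mask lo hi : Nat) : Bool :=
  loopT big w (noCl5 big w w) (Nat.pow 2 hi) w (lowCut mask lo)

end Vale.Agent.Lib.P052
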