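import Mathlib
import Vale.Agent.Lib.P052.EngineDefs

namespace Vale.Agent.Lib.P052

/-- Removing the lowest set bit: `x = 2 ^ (k + 1) * q + 2 ^ k` and `x &&& (x - 1)` is
`2 ^ (k + 1) * q`. -/
theorem lowbit {x : ℕ} (hx : x ≠ 0) :
    ∃ k q, x = 2 ^ (k + 1) * q + 2 ^ k ∧ Nat.land x (Nat.sub x 1) = 2 ^ (k + 1) * q := by
  obtain ⟨k, m, hm, rfl⟩ := Nat.exists_eq_two_pow_mul_odd hx
  obtain ⟨q, rfl⟩ := hm
  refine ⟨k, q, by ring, ?_⟩
  have hpos : 0 < 2 ^ k := by positivity
  have e1 : 2 ^ k * (2 * q + 1) = 2 ^ (k + 1) * q + 2 ^ k := by ring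
  have e2 : Nat.sub (2 ^ k * (2 * q + 1)) 1 = 2 ^ (k + 1) * q + (2 ^ k - 1) := by
    show 2 ^ k * (2 * q + 1) - 1 = _
    rw [e1]
    omega
  have hlt1 : 2 ^ k < 2 ^ (k + 1) := by
    rw [pow_succ]
    omega
  have hlt2 : 2 ^ k - 1 < 2 ^ (k + 1) := by omega
  have hlt3 : 0 < 2 ^ (k + 1) := by positivity
  show (2 ^ k * (2 * q + 1)) &&& (Nat.sub (2 ^ k * (2 * q + 1)) 1) = _
  rw [e2, e1]
  apply Nat.eq_of_testBit_eq
  intro j
  have e3 := Nat.testBit_two_pow_mul_add q hlt3 j
  rw [Nat.add_zero] at e3
  rw [Nat.testBit_and, Nat.testBit_two_pow_mul_add q hlt1, Nat.testBit_two_pow_mul_add q hlt2, e3]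
  by_cases hj : j < k + 1
  · simp only [hj, if_true, Nat.testBit_two_pow, Nat.testBit_two_pow_sub_one, Nat.zero_testBit]
    by_cases hjk : k = j
    · subst hjk
      simp
    · simp [hjk]
  · simp [hj]

/-- The facts about the lowest member `k` of a nonempty set `cand` used by the search. -/
theorem lowbit_facts {cand : ℕ} (hc : cand ≠ 0) :
    ∃ k, Nat.sub cand (Nat.land cand (Nat.sub cand 1)) = 2 ^ k ∧ cand.testBit k = true ∧
      ∀ x, cand.testBit x = true →
        x = k ∨ (k < x ∧ (Nat.land cand (Nat.sub cand 1)).testBit x = true) := by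
  obtain ⟨k, q, hx, hland⟩ := lowbit hc
  have hlt1 : 2 ^ k < 2 ^ (k + 1) := by
    rw [pow_succ]
    have : 0 < 2 ^ k := by positivity
    omega
  have hlt3 : 0 < 2 ^ (k + 1) := by positivity
  refine ⟨k, ?_, ?_, ?_⟩
  · rw [hland]
    show cand - 2 ^ (k + 1) * q = 2 ^ k
    omega
  · rw [hx, Nat.testBit_two_pow_mul_add q hlt1]
    simp
  · intro x hxb
    rw [hland]
    have e3 := Nat.testBit_two_pow_mul_add q hlt3 x
    rw [Nat.add_zero] at e3
    rw [hx, Nat.testBit_two_pow_mul_add q hlt1] at hxb
    by_cases hxk : x < k + 1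
    · simp only [hxk, if_true, Nat.testBit_two_pow, decide_eq_true_eq] at hxb
      exact Or.inl hxb.symm
    · simp only [hxk, if_false] at hxb
      refine Or.inr ⟨by omega, ?_⟩
      rw [e3]
      simp only [hxk, if_false]
      exact hxb

theorem dlog_pow : ∀ k, k < 418 → dlog (2 ^ k % 419 - 1) = k := by decide +kernel

theorem pow_mod_ne (k : ℕ) : 2 ^ k % 419 ≠ 0 := by
  intro h
  have hd : 419 ∣ 2 ^ k := Nat.dvd_of_mod_eq_zero h
  have h2 : 419 ∣ 2 := Nat.Prime.dvd_of_dvd_pow (by norm_num) hd
  have := Nat.le_of_dvd (by norm_num) h2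
  omega

/-- What one round of the search gives, once the lowest member `k` has been removed. -/
theorem round {big w : ℕ} {F : ℕ → Bool} {G : Bool} {c k : ℕ} (hw : w ≤ 418)
    (h : (Nat.rec (motive := fun _ => Bool) true
        (fun h _ => Bool.rec (motive := fun _ => Bool) false G
          (F (Nat.land c (rowN big w h))))
        (Nat.mod (2 ^ k) 419) : Bool) = true) :
    G = true ∧ (k < w → ∃ r, F (Nat.land c r) = true ∧ ∀ x, r.testBit x = adjB big w k x) := by
  obtain ⟨hh, hmod⟩ : ∃ hh, 2 ^ k % 419 = hh + 1 := Nat.exists_eq_succ_of_ne_zero (pow_mod_ne k)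
  have hmod' : Nat.mod (2 ^ k) 419 = hh + 1 := hmod
  rw [hmod'] at h
  change (Bool.rec (motive := fun _ => Bool) false G
    (F (Nat.land c (rowN big w hh))) : Bool) = true at h
  cases hF : F (Nat.land c (rowN big w hh)) with
  | false =>
    rw [hF] at h
    have h' : false = true := h
    exact Bool.noConfusion h'
  | true =>
    rw [hF] at h
    refine ⟨h, fun hkw => ⟨rowN big w hh, hF, fun x => ?_⟩⟩
    have hd : dlog hh = k := by
      have := dlog_pow k (by omega)
      rw [hmod] at this
      simpa using this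
    unfold rowN adjB
    rw [hd]
    show (big >>> (k * w)).testBit x = _
    rw [Nat.testBit_shiftRight]

/-- `F` answers `true` only on sets without `k` pairwise adjacent members below `w`. -/
def Sound (big w k : ℕ) (F : ℕ → Bool) : Prop :=
  ∀ cand, F cand = true → ∀ S : Finset ℕ, (∀ x ∈ S, x < w ∧ cand.testBit x = true) →
    (∀ x ∈ S, ∀ y ∈ S, x < y → adjB big w x y = true) → S.card < k

theorem card_zero_of_subset_zero {w : ℕ} {S : Finset ℕ}
    (hS : ∀ x ∈ S, x < w ∧ (0 : ℕ).testBit x = true) : S.card = 0 := by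
  rw [Finset.card_eq_zero]
  apply Finset.eq_empty_of_forall_notMem
  intro x hx
  have := (hS x hx).2
  simp at this

theorem sound_isZero (big w : ℕ) : Sound big w 1 isZero := by
  intro cand h S hS _
  have hc : cand = 0 := Nat.eq_of_beq_eq_true h
  subst hc
  rw [card_zero_of_subset_zero hS]
  exact Nat.zero_lt_one

theorem loopN_succ (big w : ℕ) (F : ℕ → Bool) (n cand : ℕ) :
    loopN big w F (n + 1) cand =
      (Nat.rec (motive := fun _ => Bool) true
        (fun h _ => Bool.rec (motive := fun _ => Bool) false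
          (loopN big w F n (Nat.land cand (Nat.sub cand 1)))
          (F (Nat.land (Nat.land cand (Nat.sub cand 1)) (rowN big w h))))
        (Nat.mod (Nat.sub cand (Nat.land cand (Nat.sub cand 1))) 419) : Bool) := rfl

theorem sound_loopN {big w k : ℕ} {F : ℕ → Bool} (hw : w ≤ 418) (hF : Sound big w k F)
    (fuel : ℕ) : Sound big w (k + 1) (loopN big w F fuel) := by
  induction fuel with
  | zero =>
    intro cand h S hS _
    have hc : cand = 0 := Nat.eq_of_beq_eq_true h
    subst hc
    rw [card_zero_of_subset_zero hS]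
    exact Nat.succ_pos k
  | succ n ih =>
    intro cand h S hS hadj
    by_cases hc : cand = 0
    · subst hc
      rw [card_zero_of_subset_zero hS]
      exact Nat.succ_pos k
    · obtain ⟨k0, hsub, -, hmem⟩ := lowbit_facts hc
      rw [loopN_succ, hsub] at h
      obtain ⟨hG, hrow⟩ := round hw h
      by_cases hin : k0 ∈ S
      · obtain ⟨r, hFr, hr⟩ := hrow (hS k0 hin).1
        have hcard := hF _ hFr (S.erase k0) (by
          intro x hx
          obtain ⟨hne, hxS⟩ := Finset.mem_erase.mp hx
          refine ⟨(hS x hxS).1, ?_⟩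
          rcases hmem x (hS x hxS).2 with rfl | ⟨hlt, hcx⟩
          · exact absurd rfl hne
          · show ((Nat.land cand (Nat.sub cand 1)) &&& r).testBit x = true
            rw [Nat.testBit_and, hcx, hr x, hadj k0 hin x hxS hlt]
            rfl) (by
          intro x hx y hy hxy
          exact hadj x (Finset.mem_of_mem_erase hx) y (Finset.mem_of_mem_erase hy) hxy)
        rw [Finset.card_erase_of_mem hin] at hcard
        omega
      · refine ih _ hG S (fun x hx => ⟨(hS x hx).1, ?_⟩) hadj
        rcases hmem x (hS x hx).2 with rfl | ⟨-, hcx⟩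
        · exact absurd hx hin
        · exact hcx

theorem sound_noCl5 (big w fuel : ℕ) (hw : w ≤ 418) : Sound big w 5 (noCl5 big w fuel) :=
  sound_loopN hw (sound_loopN hw (sound_loopN hw (sound_loopN hw (sound_isZero big w) fuel) fuel)
    fuel) fuel

theorem loopT_succ (big w : ℕ) (F : ℕ → Bool) (lim n cand : ℕ) :
    loopT big w F lim (n + 1) cand =
      (Bool.rec (motive := fun _ => Bool)
        (Nat.rec (motive := fun _ => Bool) true
          (fun h _ => Bool.rec (motive := fun _ => Bool) false
            (loopT big w F lim n (Nat.land cand (Nat.sub cand 1)))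
            (F (Nat.land (Nat.land cand (Nat.sub cand 1)) (rowN big w h))))
          (Nat.mod (Nat.sub cand (Nat.land cand (Nat.sub cand 1))) 419))
        true
        (Nat.ble lim (Nat.sub cand (Nat.land cand (Nat.sub cand 1)))) : Bool) := rfl

theorem sound_loopT {big w k : ℕ} {F : ℕ → Bool} (hw : w ≤ 418) (hF : Sound big w k F)
    (lim fuel : ℕ) : ∀ cand, loopT big w F lim fuel cand = true → ∀ S : Finset ℕ,
      (∀ x ∈ S, x < w ∧ cand.testBit x = true) →
      (∀ x ∈ S, ∀ y ∈ S, x < y → adjB big w x y = true) →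
      (∃ x ∈ S, 2 ^ x < lim) → S.card < k + 1 := by
  induction fuel with
  | zero =>
    intro cand h S hS _ _
    have hc : cand = 0 := Nat.eq_of_beq_eq_true h
    subst hc
    rw [card_zero_of_subset_zero hS]
    exact Nat.succ_pos k
  | succ n ih =>
    intro cand h S hS hadj hex
    by_cases hc : cand = 0
    · subst hc
      rw [card_zero_of_subset_zero hS]
      exact Nat.succ_pos k
    · obtain ⟨k0, hsub, -, hmem⟩ := lowbit_facts hc
      rw [loopT_succ, hsub] at h
      cases hb : Nat.ble lim (2 ^ k0) with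
      | true =>
        exfalso
        have hle : lim ≤ 2 ^ k0 := Nat.le_of_ble_eq_true hb
        obtain ⟨x, hxS, hxlim⟩ := hex
        have hlt : x < k0 := (Nat.pow_lt_pow_iff_right (by norm_num)).mp (lt_of_lt_of_le hxlim hle)
        rcases hmem x (hS x hxS).2 with rfl | ⟨hlt', -⟩
        · exact lt_irrefl _ hlt
        · omega
      | false =>
        rw [hb] at h
        change (Nat.rec (motive := fun _ => Bool) true
          (fun h _ => Bool.rec (motive := fun _ => Bool) false
            (loopT big w F lim n (Nat.land cand (Nat.sub cand 1)))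
            (F (Nat.land (Nat.land cand (Nat.sub cand 1)) (rowN big w h))))
          (Nat.mod (2 ^ k0) 419) : Bool) = true at h
        obtain ⟨hG, hrow⟩ := round hw h
        by_cases hin : k0 ∈ S
        · obtain ⟨r, hFr, hr⟩ := hrow (hS k0 hin).1
          have hcard := hF _ hFr (S.erase k0) (by
            intro x hx
            obtain ⟨hne, hxS⟩ := Finset.mem_erase.mp hx
            refine ⟨(hS x hxS).1, ?_⟩
            rcases hmem x (hS x hxS).2 with rfl | ⟨hlt, hcx⟩
            · exact absurd rfl hne
            · show ((Nat.land cand (Nat.sub cand 1)) &&& r).testBit x = true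
              rw [Nat.testBit_and, hcx, hr x, hadj k0 hin x hxS hlt]
              rfl) (by
            intro x hx y hy hxy
            exact hadj x (Finset.mem_of_mem_erase hx) y (Finset.mem_of_mem_erase hy) hxy)
          rw [Finset.card_erase_of_mem hin] at hcard
          omega
        · refine ih _ hG S (fun x hx => ⟨(hS x hx).1, ?_⟩) hadj ?_
          · rcases hmem x (hS x hx).2 with rfl | ⟨-, hcx⟩
            · exact absurd hx hin
            · exact hcx
          · exact hex

/-- No `k` members of `mask` that are below `w` and at least `b` are pairwise adjacent. -/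
def NoClq (big w mask k b : ℕ) : Prop :=
  ∀ S : Finset ℕ, (∀ x ∈ S, x < w ∧ mask.testBit x = true ∧ b ≤ x) →
    (∀ x ∈ S, ∀ y ∈ S, x < y → adjB big w x y = true) → S.card < k

theorem noClq_top (big w mask k : ℕ) (hk : 0 < k) : NoClq big w mask k w := by
  intro S hS _
  have : S = ∅ := by
    apply Finset.eq_empty_of_forall_notMem
    intro x hx
    have := hS x hx
    omega
  rw [this, Finset.card_empty]
  exact hk

theorem testBit_lowCut (mask b x : ℕ) :
    (lowCut mask b).testBit x = (decide (b ≤ x) && mask.testBit x) := by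
  show ((mask >>> b) <<< b).testBit x = _
  rw [Nat.testBit_shiftLeft, Nat.testBit_shiftRight]
  by_cases h : b ≤ x
  · have : b + (x - b) = x := by omega
    simp [h, this]
  · simp [h]

/-- One piece of the search: cliques whose lowest member is in `[lo, hi)`. -/
theorem piece6_step {big w mask lo hi : ℕ} (hw : w ≤ 418)
    (h : piece6 big w mask lo hi = true) (hP : NoClq big w mask 6 hi) :
    NoClq big w mask 6 lo := by
  intro S hS hadj
  by_cases hex : ∃ x ∈ S, x < hi
  · obtain ⟨x, hxS, hxhi⟩ := hex
    refine sound_loopT hw (sound_noCl5 big w w hw) (Nat.pow 2 hi) w (lowCut mask lo) h S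
      (fun y hy => ⟨(hS y hy).1, ?_⟩) hadj ⟨x, hxS, ?_⟩
    · rw [testBit_lowCut]
      simp [(hS y hy).2.1, (hS y hy).2.2]
    · show 2 ^ x < 2 ^ hi
      exact Nat.pow_lt_pow_right (by norm_num) hxhi
  · push Not at hex
    exact hP S (fun y hy => ⟨(hS y hy).1, (hS y hy).2.1, hex y hy⟩) hadj

/-- The form in which the result of the search is used: no six members of `mask` below `w` are
pairwise adjacent. -/
theorem card_le_five_of_noClq {big w mask : ℕ} (h : NoClq big w mask 6 0) (S : Finset ℕ)
    (hS : ∀ x ∈ S, x < w ∧ mask.testBit x = true)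
    (hadj : ∀ x ∈ S, ∀ y ∈ S, x < y → adjB big w x y = true) : S.card ≤ 5 := by
  have := h S (fun x hx => ⟨(hS x hx).1, (hS x hx).2, Nat.zero_le x⟩) hadj
  omega

end Vale.Agent.Lib.P052
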