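import Vale.Agent.Lib.P052.MatDefs

/-!
# Recursor forms of the checks

The functions of `MatDefs` once more, written directly with the recursors of `Nat`, `List` and
`Bool`.  The kernel evaluates these forms faster and in less memory.  The file `Twin` proves that
they agree with the functions of `MatDefs`.
-/

namespace Vale.Agent.Lib.P052

/-- `allF p n` checks `p i` for all `i < n`. -/
noncomputable def allF (p : Nat → Bool) (n : Nat) : Bool :=
  @Nat.rec (fun _ => Bool) true (fun m ih => @Bool.rec (fun _ => Bool) false ih (p m)) n

/-- `sumF f n` is the sum of `f i` over `i < n`. -/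
noncomputable def sumF (f : Nat → Nat) (n : Nat) : Nat :=
  @Nat.rec (fun _ => Nat) 0 (fun m ih => Nat.add ih (f m)) n

/-- The entry number `n` of a list of numbers, `0` beyond its end. -/
noncomputable def nthF (l : List Nat) : Nat → Nat :=
  @List.rec Nat (fun _ => Nat → Nat) (fun _ => 0)
    (fun c _ ih n => @Nat.rec (fun _ => Nat) c (fun m _ => ih m) n) l

/-- Column `u` of the packed matrix. -/
noncomputable def colF (u : Nat) : Nat := nthF colList u

/-- The entry `(v, u)` of the matrix `Q + 9`. -/
noncomputable def qtF (v u : Nat) : Nat := Nat.mod (Nat.div (colF u) (Nat.pow bB v)) bB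

/-- The bit number `n` of `m`. -/
noncomputable def tbF (m n : Nat) : Bool := Nat.beq (Nat.land 1 (Nat.shiftRight m n)) 1

/-- The accumulation of `rowAcc`. -/
noncomputable def rowAccF (bv : Nat) (l : List Nat) : Nat → Nat :=
  @List.rec Nat (fun _ => Nat → Nat) (fun acc => acc)
    (fun c _ ih acc => ih (Nat.add acc (Nat.mul (Nat.mod (Nat.div c bv) bB) c))) l

/-- The packed form of row `v` of the identity `(Q+9)(Q+9)ᵀ = 96 (Q+9) + 32832 J`. -/
noncomputable def rowChkF (v : Nat) : Bool :=
  Nat.beq (rowAccF (Nat.pow bB v) colList 0)
    (Nat.add (Nat.mul 96 (colF v)) (Nat.mul 32832 onesLit))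

/-- The number whose 416 base-`2^20` digits are all `2^20 - 32`. -/
noncomputable def digMask : Nat := Nat.mul 1048544 onesLit

/-- Column `u` is below `2^8320` and has no bit in common with `digMask`. -/
noncomputable def colBndF (u : Nat) : Bool :=
  @Bool.rec (fun _ => Bool) false (Nat.beq (Nat.land (colF u) digMask) 0)
    (Nat.ble (Nat.succ (colF u)) (Nat.pow bB 416))

/-- The columns add up to the packed constant vector `3744`. -/
noncomputable def colSumF : Bool := Nat.beq (sumF colF 416) (Nat.mul 3744 onesLit)

/-- `onesLit` is the sum of the first 416 powers of the base. -/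
noncomputable def onesF : Bool := Nat.beq onesLit (sumF (fun w => Nat.pow bB w) 416)

/-- The diagonal of `Q + 9` adds up to `9792`. -/
noncomputable def traceF : Bool := Nat.beq (sumF (fun v => qtF v v) 416) 9792

/-- The selected set has 321 elements. -/
noncomputable def countF : Bool :=
  Nat.beq (sumF (fun v => @Bool.rec (fun _ => Nat) 0 1 (tbF sMask v)) 416) 321

/-- Diagonal entries on the selected set: `22` at the index `0` and `24` elsewhere. -/
noncomputable def diagF : Bool :=
  allF (fun v => @Bool.rec (fun _ => Bool) true
    (Nat.beq (qtF v v) (@Bool.rec (fun _ => Nat) 24 22 (Nat.beq v 0))) (tbF sMask v)) 416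

/-- Off-diagonal entries on the selected set: `8`, or `12` at a pair marked in `nb`. -/
noncomputable def pairF (v : Nat) : Bool :=
  @Bool.rec (fun _ => Bool) true
    (allF (fun u => @Bool.rec (fun _ => Bool) true
      (@Bool.rec (fun _ => Bool)
        (@Bool.rec (fun _ => Bool) false (tbF (nb u) v) (Nat.beq (qtF u v) 12))
        true (Nat.beq (qtF u v) 8))
      (tbF sMask u)) v)
    (tbF sMask v)

/-- The index table returns `v` at the power `2^v`. -/
noncomputable def idxF : Bool :=
  allF (fun v => Nat.beq (Nat.mod (Nat.div idxBig (Nat.pow (Nat.pow 2 v) 9)) 512) v) 416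

/-- One level of the clique search, as `loopC`. -/
noncomputable def loopF (f : Nat → Bool) (fuel : Nat) : Nat → Bool :=
  @Nat.rec (fun _ => Nat → Bool) (fun _ => false)
    (fun _ ih cand => @Bool.rec (fun _ => Bool)
      (@Bool.rec (fun _ => Bool) (ih (Nat.xor cand (Nat.gcd cand p416))) true
        (f (Nat.land (Nat.xor cand (Nat.gcd cand p416))
          (nb (Nat.mod (Nat.div idxBig (Nat.pow (Nat.gcd cand p416) 9)) 512)))))
      false (Nat.beq cand 0)) fuel

/-- The clique search, as `hasClique`. -/
noncomputable def hasCliqueF (k : Nat) : Nat → Bool :=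
  @Nat.rec (fun _ => Nat → Bool) (fun _ => true) (fun _ ih cand => loopF ih 416 cand) k

/-- No six pairwise marked indices of the selected set have `v` as their least element. -/
noncomputable def topF (v : Nat) : Bool :=
  @Bool.rec (fun _ => Bool) true
    (@Bool.rec (fun _ => Bool) true false (hasCliqueF 5
      (Nat.land (Nat.shiftLeft (Nat.shiftRight sMask (Nat.succ v)) (Nat.succ v)) (nb v))))
    (tbF sMask v)

end Vale.Agent.Lib.P052
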