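import Vale.Agent.Lib.P052.Assembly

/-!
# The dimension 63 construction from data indexed by natural numbers

`borsuk63_of_data` restates `borsuk63_of_graph` for a Boolean adjacency function on natural
numbers and integer coefficient vectors, the shape produced by kernel-evaluated checks.
-/

open Matrix

namespace Vale.Agent.Lib.P052

/-- Integer entry of `M = 16 I + 4 A - J` for an adjacency function on natural numbers. -/
def mEntry (adj : ℕ → ℕ → Bool) (v i : ℕ) : ℤ :=
  if v = i then 15 else if adj v i then 3 else -1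

theorem gramMat_eq_mEntry (adj : ℕ → ℕ → Bool) (v i : Fin 416) :
    gramMat (fun a b : Fin 416 => adj a b = true) v i = ((mEntry adj v i : ℤ) : ℝ) := by
  unfold gramMat mEntry
  by_cases h : v = i
  · subst h
    simp
  · have h' : ¬ (v : ℕ) = (i : ℕ) := fun h' => h (Fin.ext h')
    rw [if_neg h, if_neg h']
    by_cases h2 : adj v i = true
    · rw [if_pos h2, if_pos h2]
      norm_num
    · rw [if_neg h2, if_neg h2]
      norm_num

theorem sum_gramMat_eq (adj : ℕ → ℕ → Bool) (c : ℕ → ℤ) (v : Fin 416) :
    ∑ i : Fin 416, gramMat (fun a b : Fin 416 => adj a b = true) v i * ((c i : ℤ) : ℝ) =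
      ((∑ i ∈ Finset.range 416, mEntry adj v i * c i : ℤ) : ℝ) := by
  rw [← Fin.sum_univ_eq_sum_range (fun i => mEntry adj v i * c i) 416]
  push_cast
  apply Finset.sum_congr rfl
  intro i _
  rw [gramMat_eq_mEntry]

/-- The dimension 63 construction from data indexed by natural numbers: a Boolean adjacency
function on `0, ..., 415` that is symmetric, irreflexive, strongly regular with parameters
(416, 100, 36, 20) in common-neighbour-count form and has no 6-clique; two integer coefficient
vectors; a set `T` of at least 320 vertices on which both integer sums vanish; a vertex `w`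
outside `T`; and two vertices `x`, `y` certifying that the two hyperplanes are independent. -/
theorem borsuk63_of_data (adj : ℕ → ℕ → Bool)
    (hsymm : ∀ i j, i < 416 → j < 416 → adj i j = adj j i)
    (hirr : ∀ i, i < 416 → adj i i = false)
    (hsrg : ∀ i j, i < 416 → j < 416 →
      ((Finset.range 416).filter (fun k => adj i k = true ∧ adj k j = true)).card =
        if i = j then 100 else if adj i j = true then 36 else 20)
    (hno6 : ∀ S : Finset ℕ, (∀ i ∈ S, i < 416) →
      (∀ i ∈ S, ∀ j ∈ S, i ≠ j → adj i j = true) → S.card ≤ 5)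
    (ca cb : ℕ → ℤ) (T : Finset ℕ) (hT416 : ∀ v ∈ T, v < 416) (hT : 320 ≤ T.card)
    (hTa : ∀ v ∈ T, ∑ i ∈ Finset.range 416, mEntry adj v i * ca i = 0)
    (hTb : ∀ v ∈ T, ∑ i ∈ Finset.range 416, mEntry adj v i * cb i = 0)
    (w : ℕ) (hw416 : w < 416) (hw : w ∉ T)
    (x y : ℕ) (hx : x < 416) (hy : y < 416)
    (hdet : (∑ i ∈ Finset.range 416, mEntry adj x i * ca i) *
        (∑ i ∈ Finset.range 416, mEntry adj y i * cb i) -
      (∑ i ∈ Finset.range 416, mEntry adj y i * ca i) *
        (∑ i ∈ Finset.range 416, mEntry adj x i * cb i) ≠ 0) :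
    ∃ Y : Set (EuclideanSpace ℝ (Fin 63)), Y.Finite ∧ 0 < Metric.diam Y ∧
      ∀ P : Fin 64 → Set (EuclideanSpace ℝ (Fin 63)), (⋃ i, P i) = Y →
        ∃ i, Metric.diam Y ≤ Metric.diam (P i) := by
  classical
  set adj' : Fin 416 → Fin 416 → Prop := fun a b => adj a b = true with hadj'
  have hsymm' : ∀ i j, adj' i j → adj' j i := by
    intro i j h
    simp only [hadj'] at h ⊢
    rw [← hsymm i j i.2 j.2]
    exact h
  have hirr' : ∀ i, ¬ adj' i i := by
    intro i h
    simp only [hadj'] at h
    rw [hirr i i.2] at h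
    exact Bool.false_ne_true h
  have hsrg' : ∀ i j : Fin 416, (Finset.univ.filter (fun k => adj' i k ∧ adj' k j)).card =
      if i = j then 100 else if adj' i j then 36 else 20 := by
    intro i j
    have h := hsrg i j i.2 j.2
    have e1 : (Finset.univ.filter (fun k : Fin 416 => adj' i k ∧ adj' k j)).card =
        ((Finset.range 416).filter (fun k => adj i k = true ∧ adj k j = true)).card := by
      rw [Finset.card_filter, Finset.card_filter]
      rw [← Fin.sum_univ_eq_sum_range
        (fun k => if adj i k = true ∧ adj k j = true then 1 else 0) 416]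
    rw [e1, h]
    by_cases hij : i = j
    · subst hij
      simp
    · have hij' : ¬ (i : ℕ) = (j : ℕ) := fun h' => hij (Fin.ext h')
      rw [if_neg hij, if_neg hij']
  have hclique' : ∀ S : Finset (Fin 416), (∀ i ∈ S, ∀ j ∈ S, i ≠ j → adj' i j) → S.card ≤ 5 := by
    intro S hS
    have := hno6 (S.map Fin.valEmbedding) (by
      intro i hi
      obtain ⟨i', _, rfl⟩ := Finset.mem_map.mp hi
      exact i'.2) (by
      intro i hi j hj hij
      obtain ⟨i', hi', rfl⟩ := Finset.mem_map.mp hi
      obtain ⟨j', hj', rfl⟩ := Finset.mem_map.mp hj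
      exact hS i' hi' j' hj' (fun h => hij (by rw [h])))
    rwa [Finset.card_map] at this
  set T' : Finset (Fin 416) := Finset.univ.filter (fun v : Fin 416 => (v : ℕ) ∈ T) with hT'
  have hT'card : T'.card = T.card := by
    have : T'.map Fin.valEmbedding = T := by
      ext k
      simp only [Finset.mem_map, hT', Finset.mem_filter, Finset.mem_univ, true_and,
        Fin.valEmbedding_apply]
      constructor
      · rintro ⟨v, hv, rfl⟩
        exact hv
      · intro hk
        exact ⟨⟨k, hT416 k hk⟩, hk, rfl⟩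
    rw [← this, Finset.card_map]
  have hmemT' : ∀ v : Fin 416, v ∈ T' → (v : ℕ) ∈ T := by
    intro v hv
    exact (Finset.mem_filter.mp hv).2
  refine borsuk63_of_graph adj' hsymm' hirr' hsrg' hclique' (fun i => ((ca i : ℤ) : ℝ))
    (fun i => ((cb i : ℤ) : ℝ)) T' (by rw [hT'card]; exact hT) ?_ ?_ ⟨w, hw416⟩ ?_
    ⟨x, hx⟩ ⟨y, hy⟩ ?_
  · intro v hv
    rw [sum_gramMat_eq adj ca v, hTa v (hmemT' v hv)]
    simp
  · intro v hv
    rw [sum_gramMat_eq adj cb v, hTb v (hmemT' v hv)]
    simp
  · intro h
    exact hw (hmemT' _ h)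
  · rw [sum_gramMat_eq adj ca ⟨x, hx⟩, sum_gramMat_eq adj cb ⟨y, hy⟩,
      sum_gramMat_eq adj ca ⟨y, hy⟩, sum_gramMat_eq adj cb ⟨x, hx⟩]
    exact_mod_cast hdet

end Vale.Agent.Lib.P052
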