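import Mathlib

/-!
# Rank of an idempotent matrix and a codimension-two count

Two linear-algebra facts used for the Borsuk problem:
* the rank of an idempotent real matrix equals its trace;
* cutting a subspace `W` by the orthogonal complement of two independent vectors of `W`
  lowers the dimension by exactly two.
-/

namespace Vale.Agent.Lib.P052

open Module

/-- The trace of the linear map of a matrix on Euclidean space is the trace of the matrix. -/
theorem trace_toEuclideanLin {N : ℕ} (E : Matrix (Fin N) (Fin N) ℝ) :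
    LinearMap.trace ℝ (EuclideanSpace ℝ (Fin N)) (Matrix.toEuclideanLin E) = E.trace := by
  rw [LinearMap.trace_eq_matrix_trace ℝ (EuclideanSpace.basisFun (Fin N) ℝ).toBasis,
    Matrix.toEuclideanLin_eq_toLin_orthonormal, LinearMap.toMatrix_toLin]

/-- The rank of an idempotent real matrix equals its trace. -/
theorem finrank_range_of_idempotent {N : ℕ} (E : Matrix (Fin N) (Fin N) ℝ) (hE : E * E = E) :
    (Module.finrank ℝ (LinearMap.range (Matrix.toEuclideanLin E)) : ℝ) = E.trace := by
  set f : EuclideanSpace ℝ (Fin N) →ₗ[ℝ] EuclideanSpace ℝ (Fin N) := Matrix.toEuclideanLin E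
    with hf
  have hidem : f ∘ₗ f = f := by
    rw [hf, Matrix.toEuclideanLin_eq_toLin_orthonormal, ← Matrix.toLin_mul, hE]
  have hproj : LinearMap.IsProj (LinearMap.range f) f := by
    refine ⟨fun x => LinearMap.mem_range_self f x, ?_⟩
    rintro x ⟨y, rfl⟩
    have := congrArg (fun g : EuclideanSpace ℝ (Fin N) →ₗ[ℝ] EuclideanSpace ℝ (Fin N) => g y) hidem
    simpa using this
  rw [← hproj.trace, hf, trace_toEuclideanLin]

/-- Same statement for the action of the matrix on `Fin N → ℝ`. -/
theorem finrank_range_toLin'_of_idempotent {N : ℕ} (E : Matrix (Fin N) (Fin N) ℝ)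
    (hE : E * E = E) :
    (Module.finrank ℝ (LinearMap.range (Matrix.toLin' E)) : ℝ) = E.trace := by
  set f : (Fin N → ℝ) →ₗ[ℝ] (Fin N → ℝ) := Matrix.toLin' E with hf
  have hidem : f ∘ₗ f = f := by
    rw [hf, ← Matrix.toLin'_mul, hE]
  have hproj : LinearMap.IsProj (LinearMap.range f) f := by
    refine ⟨fun x => LinearMap.mem_range_self f x, ?_⟩
    rintro x ⟨y, rfl⟩
    have := congrArg (fun g : (Fin N → ℝ) →ₗ[ℝ] (Fin N → ℝ) => g y) hidem
    simpa using this
  rw [← hproj.trace, hf, Matrix.trace_toLin'_eq]

/-- Cutting a subspace by the orthogonal complement of two of its vectors that are linearly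
independent lowers the dimension by two. -/
theorem finrank_inf_orthogonal_pair {N : ℕ} (W : Submodule ℝ (EuclideanSpace ℝ (Fin N)))
    (a b : EuclideanSpace ℝ (Fin N)) (ha : a ∈ W) (hb : b ∈ W)
    (hab : LinearIndependent ℝ ![a, b]) :
    Module.finrank ℝ (W ⊓ (Submodule.span ℝ {a, b})ᗮ : Submodule ℝ (EuclideanSpace ℝ (Fin N))) + 2
      = Module.finrank ℝ W := by
  have hle : Submodule.span ℝ {a, b} ≤ W := by
    rw [Submodule.span_le]
    rintro x (rfl | rfl)
    · exact ha
    · exact hb
  have hrange : Set.range ![a, b] = {a, b} := by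
    ext x
    simp only [Set.mem_range, Set.mem_insert_iff, Set.mem_singleton_iff]
    constructor
    · rintro ⟨i, rfl⟩
      fin_cases i
      · left; rfl
      · right; rfl
    · rintro (rfl | rfl)
      · exact ⟨0, rfl⟩
      · exact ⟨1, rfl⟩
  have h2 : Module.finrank ℝ (Submodule.span ℝ ({a, b} : Set (EuclideanSpace ℝ (Fin N)))) = 2 := by
    rw [← hrange, finrank_span_eq_card hab]
    simp
  have h := Submodule.finrank_add_inf_finrank_orthogonal hle
  rw [h2] at h
  rw [inf_comm]
  omega

end Vale.Agent.Lib.P052
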