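import Vale.Agent.Lib.P052.GramMat
import Vale.Agent.Lib.P052.Rank

/-!
# Euclidean points attached to a strongly regular graph with parameters (416, 100, 36, 20)

Row `i` of `M = 16 I + 4 A - J` is a point of Euclidean 416-space; the Gram matrix of the rows
is `96 M`, and the row space has dimension 65.
-/

open Matrix

namespace Vale.Agent.Lib.P052

section geom

variable (adj : Fin 416 → Fin 416 → Prop) [DecidableRel adj]

/-- The point of Euclidean space attached to vertex `i`: row `i` of the matrix `16 I + 4 A - J`. -/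
noncomputable def vtx (i : Fin 416) : EuclideanSpace ℝ (Fin 416) :=
  WithLp.toLp 2 (fun k => gramMat adj i k)

/-- The idempotent `M / 96`. -/
noncomputable def projMat : Matrix (Fin 416) (Fin 416) ℝ := (1 / 96 : ℝ) • gramMat adj

/-- The vector of the row space attached to a coefficient vector `c`. -/
noncomputable def rowVec (c : Fin 416 → ℝ) : EuclideanSpace ℝ (Fin 416) :=
  Matrix.toEuclideanLin (projMat adj) (WithLp.toLp 2 c)

variable {adj}

theorem toEuclideanLin_toLp_eq {m : Type*} [Fintype m] [DecidableEq m] (B : Matrix m m ℝ)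
    (v : m → ℝ) :
    Matrix.toEuclideanLin B (WithLp.toLp 2 v) = WithLp.toLp 2 (B *ᵥ v) := rfl

theorem inner_vtx (hsymm : ∀ i j, adj i j → adj j i)
    (hmul : gramMat adj * gramMat adj = (96 : ℝ) • gramMat adj) (i j : Fin 416) :
    inner ℝ (vtx adj i) (vtx adj j) = 96 * gramMat adj i j := by
  have h := congrFun (congrFun hmul i) j
  rw [Matrix.mul_apply, Matrix.smul_apply, smul_eq_mul] at h
  rw [← h]
  unfold vtx
  rw [EuclideanSpace.inner_toLp_toLp]
  simp only [dotProduct, star_trivial, Pi.star_apply]
  apply Finset.sum_congr rfl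
  intro k _
  rw [gramMat_symm hsymm k j]
  ring

theorem projMat_mul_self (hmul : gramMat adj * gramMat adj = (96 : ℝ) • gramMat adj) :
    projMat adj * projMat adj = projMat adj := by
  unfold projMat
  rw [Matrix.smul_mul, Matrix.mul_smul, hmul, smul_smul, smul_smul]
  congr 1
  norm_num

theorem gramMat_mul_projMat (hmul : gramMat adj * gramMat adj = (96 : ℝ) • gramMat adj) :
    gramMat adj * projMat adj = gramMat adj := by
  unfold projMat
  rw [Matrix.mul_smul, hmul, smul_smul]
  norm_num

theorem projMat_trace : (projMat adj).trace = 65 := by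
  unfold projMat
  rw [Matrix.trace_smul, Matrix.trace]
  simp only [Matrix.diag_apply, gramMat, if_true, Finset.sum_const, Finset.card_univ,
    Fintype.card_fin, nsmul_eq_mul, smul_eq_mul]
  norm_num

theorem finrank_rowSpace (hmul : gramMat adj * gramMat adj = (96 : ℝ) • gramMat adj) :
    Module.finrank ℝ (LinearMap.range (Matrix.toEuclideanLin (projMat adj))) = 65 := by
  have h := finrank_range_of_idempotent (projMat adj) (projMat_mul_self hmul)
  rw [projMat_trace] at h
  exact_mod_cast h

theorem rowVec_mem (c : Fin 416 → ℝ) :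
    rowVec adj c ∈ LinearMap.range (Matrix.toEuclideanLin (projMat adj)) :=
  LinearMap.mem_range_self _ _

theorem vtx_mem (hsymm : ∀ i j, adj i j → adj j i) (i : Fin 416) :
    vtx adj i ∈ LinearMap.range (Matrix.toEuclideanLin (projMat adj)) := by
  refine ⟨WithLp.toLp 2 ((96 : ℝ) • Pi.single i (1 : ℝ)), ?_⟩
  unfold vtx
  rw [toEuclideanLin_toLp_eq]
  congr 1
  rw [Matrix.mulVec_smul, Matrix.mulVec_single_one]
  funext k
  simp only [projMat, Pi.smul_apply, Matrix.col_apply, Matrix.smul_apply, smul_eq_mul]
  rw [gramMat_symm hsymm i k]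
  ring

theorem inner_vtx_rowVec (hmul : gramMat adj * gramMat adj = (96 : ℝ) • gramMat adj)
    (v : Fin 416) (c : Fin 416 → ℝ) :
    inner ℝ (vtx adj v) (rowVec adj c) = ∑ i, gramMat adj v i * c i := by
  unfold vtx rowVec
  rw [toEuclideanLin_toLp_eq, EuclideanSpace.inner_toLp_toLp]
  simp only [star_trivial]
  have h1 : (projMat adj *ᵥ c) ⬝ᵥ (fun k => gramMat adj v k) =
      (gramMat adj *ᵥ (projMat adj *ᵥ c)) v := by
    rw [dotProduct_comm]
    rfl
  rw [h1, Matrix.mulVec_mulVec, gramMat_mul_projMat hmul]
  rfl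

end geom

end Vale.Agent.Lib.P052
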