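import Mathlib

/-!
# From a matrix identity to a point set in a 63-dimensional Euclidean space
-/

namespace Vale.Agent.Lib.P052

open Finset

/-- Linear algebra step: an integer matrix `Q` with `Q Qᵀ = 96 Qᵀ` and trace `96 · 63` has its
rows in a 63-dimensional subspace of Euclidean space, with Gram matrix `96 Q`. -/
theorem rows_in_subspace {n : ℕ} (Q : Fin n → Fin n → ℤ)
    (hQ : ∀ v w, ∑ u, Q v u * Q w u = 96 * Q w v) (htr : ∑ v, Q v v = 6048) :
    ∃ (L : Submodule ℝ (EuclideanSpace ℝ (Fin n))) (y : Fin n → EuclideanSpace ℝ (Fin n)),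
      Module.finrank ℝ L = 63 ∧ (∀ v, y v ∈ L) ∧
      ∀ v w, inner ℝ (y v) (y w) = 96 * (Q v w : ℝ) := by
  have hsym : ∀ v w, Q v w = Q w v := by
    intro v w
    have h1 := hQ v w
    have h2 := hQ w v
    have h3 : ∑ u, Q v u * Q w u = ∑ u, Q w u * Q v u :=
      Finset.sum_congr rfl (fun u _ => mul_comm _ _)
    rw [h1, h2] at h3
    omega
  have hQr : ∀ v w, (∑ u, (Q v u : ℝ) * (Q w u : ℝ)) = 96 * (Q v w : ℝ) := by
    intro v w
    have h1 := hQ v w
    rw [← hsym v w] at h1
    exact_mod_cast h1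
  obtain ⟨A, hA⟩ : ∃ A : Matrix (Fin n) (Fin n) ℝ, ∀ v u, A v u = (Q v u : ℝ) :=
    ⟨Matrix.of (fun v u => (Q v u : ℝ)), fun v u => rfl⟩
  have hAA : A * A = (96 : ℝ) • A := by
    ext v w
    rw [Matrix.mul_apply, Matrix.smul_apply, smul_eq_mul, hA v w, ← hQr v w]
    refine Finset.sum_congr rfl (fun u _ => ?_)
    rw [hA v u, hA u w, hsym u w]
  obtain ⟨E, hE⟩ : ∃ E : Matrix (Fin n) (Fin n) ℝ, E = (96 : ℝ)⁻¹ • A := ⟨_, rfl⟩
  have hEE : E * E = E := by
    rw [hE, Matrix.smul_mul, Matrix.mul_smul, hAA, smul_smul, smul_smul]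
    congr 1
    norm_num
  obtain ⟨f, hf⟩ : ∃ f : EuclideanSpace ℝ (Fin n) →ₗ[ℝ] EuclideanSpace ℝ (Fin n),
      f = Matrix.toEuclideanLin E := ⟨_, rfl⟩
  have hidem : IsIdempotentElem f := by
    show f * f = f
    ext x : 1
    rw [Module.End.mul_apply, hf, Matrix.toEuclideanLin_apply, Matrix.toEuclideanLin_apply,
      Matrix.mulVec_mulVec, hEE]
  have htrace : LinearMap.trace ℝ (EuclideanSpace ℝ (Fin n)) f = 63 := by
    rw [LinearMap.trace_eq_matrix_trace ℝ (EuclideanSpace.basisFun (Fin n) ℝ).toBasis, hf,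
      Matrix.toEuclideanLin_eq_toLin_orthonormal, LinearMap.toMatrix_toLin]
    have h1 : (∑ v, (Q v v : ℝ)) = 6048 := by exact_mod_cast htr
    rw [hE, Matrix.trace_smul, Matrix.trace]
    simp only [Matrix.diag_apply, hA, h1]
    norm_num
  have hfin : Module.finrank ℝ (LinearMap.range f) = 63 := by
    have h1 := (LinearMap.IsIdempotentElem.isProj_range f hidem).trace
    rw [htrace] at h1
    exact_mod_cast h1.symm
  refine ⟨LinearMap.range f, fun v => WithLp.toLp 2 (fun u => (Q v u : ℝ)), hfin, ?_, ?_⟩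
  · intro v
    refine ⟨WithLp.toLp 2 (fun u => (Q v u : ℝ)), ?_⟩
    rw [hf, Matrix.toEuclideanLin_apply_piLp_toLp]
    congr 1
    funext w
    rw [hE, Matrix.smul_mulVec, Pi.smul_apply, Matrix.mulVec, dotProduct, smul_eq_mul]
    simp only [hA]
    rw [hQr w v, hsym w v]
    field_simp
  · intro v w
    simp only [PiLp.inner_apply, RCLike.inner_apply, conj_trivial]
    rw [← hQr v w]
    refine Finset.sum_congr rfl (fun u _ => ?_)
    ring

/-- Counting step: a finite point set whose pairs are at distance at most `b`, with distance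
exactly `b` for the pairs outside a relation `R` whose cliques have at most `m` elements, is not
a union of `k` subsets of smaller diameter when it has more than `k * m` points. -/
theorem no_cover_of_dist {ι E : Type*} [MetricSpace E] [DecidableEq ι] (S : Finset ι)
    (Z : ι → E) (R : ι → ι → Prop) (b : ℝ) (hb : 0 < b) (k m : ℕ) (hkm : k * m < S.card)
    (hm : m < S.card)
    (hle : ∀ v ∈ S, ∀ u ∈ S, dist (Z v) (Z u) ≤ b)
    (hfar : ∀ v ∈ S, ∀ u ∈ S, v ≠ u → ¬ R v u → dist (Z v) (Z u) = b)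
    (hcl : ∀ s ⊆ S, (∀ v ∈ s, ∀ u ∈ s, v ≠ u → R v u) → s.card ≤ m) :
    (Z '' (S : Set ι)).Finite ∧ 0 < Metric.diam (Z '' (S : Set ι)) ∧
      ¬ ∃ P : Fin k → Set E, (⋃ i, P i) = Z '' (S : Set ι) ∧
        ∀ i, Metric.diam (P i) < Metric.diam (Z '' (S : Set ι)) := by
  have hfin : (Z '' (S : Set ι)).Finite := (S.finite_toSet).image Z
  have hbdd := hfin.isBounded
  have hdiam : Metric.diam (Z '' (S : Set ι)) ≤ b := by
    refine Metric.diam_le_of_forall_dist_le hb.le ?_
    rintro _ ⟨v, hv, rfl⟩ _ ⟨u, hu, rfl⟩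
    exact hle v hv u hu
  refine ⟨hfin, ?_, ?_⟩
  · by_contra hcon
    have hall : ∀ v ∈ S, ∀ u ∈ S, v ≠ u → R v u := by
      intro v hv u hu hvu
      by_contra hR
      have h1 := hfar v hv u hu hvu hR
      have h2 := Metric.dist_le_diam_of_mem hbdd (Set.mem_image_of_mem Z hv)
        (Set.mem_image_of_mem Z hu)
      rw [h1] at h2
      exact hcon (lt_of_lt_of_le hb h2)
    have := hcl S (Finset.Subset.refl S) hall
    omega
  · rintro ⟨P, hP, hPd⟩
    have hmem : ∀ v : {v // v ∈ S}, ∃ i, Z v.1 ∈ P i := by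
      intro v
      have h1 : Z v.1 ∈ ⋃ i, P i := by
        rw [hP]; exact Set.mem_image_of_mem Z v.2
      exact Set.mem_iUnion.mp h1
    choose c hc using hmem
    have hpig : ∃ i ∈ (Finset.univ : Finset (Fin k)), m < (S.attach.filter (fun v => c v = i)).card := by
      refine Finset.exists_lt_card_fiber_of_mul_lt_card_of_maps_to (fun a _ => Finset.mem_univ _) ?_
      rw [Finset.card_univ, Fintype.card_fin, Finset.card_attach]
      exact hkm
    obtain ⟨i, _, hi⟩ := hpig
    have hsub : (P i) ⊆ Z '' (S : Set ι) := by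
      rw [← hP]; exact Set.subset_iUnion P i
    have hPb : Bornology.IsBounded (P i) := hbdd.subset hsub
    have hclq := hcl ((S.attach.filter (fun v => c v = i)).map (Function.Embedding.subtype _)) ?_ ?_
    · rw [Finset.card_map] at hclq
      omega
    · intro v hv
      rw [Finset.mem_map] at hv
      obtain ⟨a, _, rfl⟩ := hv
      exact a.2
    · intro v hv u hu hvu
      rw [Finset.mem_map] at hv hu
      obtain ⟨a, ha, rfl⟩ := hv
      obtain ⟨a', ha', rfl⟩ := hu
      rw [Finset.mem_filter] at ha ha'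
      by_contra hR
      have h1 := hfar a.1 a.2 a'.1 a'.2 hvu hR
      have h2 : dist (Z a.1) (Z a'.1) ≤ Metric.diam (P i) := by
        refine Metric.dist_le_diam_of_mem hPb ?_ ?_
        · have := hc a; rw [ha.2] at this; exact this
        · have := hc a'; rw [ha'.2] at this; exact this
      have h3 := hPd i
      linarith

/-- Geometric step: from a matrix as in `rows_in_subspace`, a set `S` of 321 indices on which
the entries are `15` on the diagonal (`13` at one index `w0`) and `3` or `-1` off the diagonal,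
with no six indices pairwise at entry `3`, one gets a finite subset of `ℝ^63` that is not a
union of 64 subsets of smaller diameter. -/
theorem borsuk_of_matrix {n : ℕ} (Q : Fin n → Fin n → ℤ)
    (hQ : ∀ v w, ∑ u, Q v u * Q w u = 96 * Q w v) (htr : ∑ v, Q v v = 6048)
    (S : Finset (Fin n)) (w0 : Fin n) (hcard : S.card = 321)
    (hdiag : ∀ v ∈ S, v ≠ w0 → Q v v = 15) (hdiag0 : Q w0 w0 = 13)
    (hoff : ∀ v ∈ S, ∀ u ∈ S, v ≠ u → Q v u = 3 ∨ Q v u = -1)
    (hcl : ∀ s ⊆ S, (∀ v ∈ s, ∀ u ∈ s, v ≠ u → Q v u = 3) → s.card ≤ 5) :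
    ∃ Y : Set (EuclideanSpace ℝ (Fin 63)), Y.Finite ∧ 0 < Metric.diam Y ∧
      ¬ ∃ P : Fin 64 → Set (EuclideanSpace ℝ (Fin 63)),
        (⋃ i, P i) = Y ∧ ∀ i, Metric.diam (P i) < Metric.diam Y := by
  obtain ⟨L, y, hfin, hyL, hin⟩ := rows_in_subspace Q hQ htr
  have hsym : ∀ v w, Q v w = Q w v := by
    intro v w
    have h1 := hQ v w
    have h2 := hQ w v
    have h3 : ∑ u, Q v u * Q w u = ∑ u, Q w u * Q v u :=
      Finset.sum_congr rfl (fun u _ => mul_comm _ _)
    rw [h1, h2] at h3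
    omega
  obtain ⟨τ, hτ0, hτ⟩ : ∃ τ : ℝ, 0 < τ ∧ 13 * τ ^ 2 + 2 * τ - 17 = 0 := by
    have h1 : (1 : ℝ) < Real.sqrt 222 := by
      rw [Real.lt_sqrt (by norm_num)]; norm_num
    have h2 := Real.sq_sqrt (show (0 : ℝ) ≤ 222 by norm_num)
    refine ⟨(Real.sqrt 222 - 1) / 13, div_pos (by linarith) (by norm_num), ?_⟩
    field_simp
    nlinarith [h2]
  obtain ⟨g, hg0, hg1⟩ : ∃ g : Fin n → L, ((g w0 : L) : EuclideanSpace ℝ (Fin n)) = τ • y w0 ∧
      ∀ v, v ≠ w0 → ((g v : L) : EuclideanSpace ℝ (Fin n)) = y v := by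
    refine ⟨fun v => if v = w0 then τ • ⟨y w0, hyL w0⟩ else ⟨y v, hyL v⟩, ?_, ?_⟩
    · simp
    · intro v hv
      simp [hv]
  obtain ⟨e, -⟩ : ∃ e : L ≃ₗᵢ[ℝ] EuclideanSpace ℝ (Fin 63), True :=
    ⟨((stdOrthonormalBasis ℝ L).reindex (finCongr hfin)).repr, trivial⟩
  have hdist : ∀ v u, dist (e (g v)) (e (g u)) ^ 2
      = ‖((g v : L) : EuclideanSpace ℝ (Fin n))‖ ^ 2
        - 2 * inner ℝ ((g v : L) : EuclideanSpace ℝ (Fin n)) ((g u : L) : EuclideanSpace ℝ (Fin n))
        + ‖((g u : L) : EuclideanSpace ℝ (Fin n))‖ ^ 2 := by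
    intro v u
    rw [e.dist_map, Subtype.dist_eq, dist_eq_norm, norm_sub_sq_real]
  have hnorm : ∀ v, ‖y v‖ ^ 2 = 96 * (Q v v : ℝ) := by
    intro v
    rw [← real_inner_self_eq_norm_sq, hin]
  have hkey : ∀ v ∈ S, ∀ u ∈ S, v ≠ u →
      (Q v u = -1 → dist (e (g v)) (e (g u)) ^ 2 = 3072) ∧
      (Q v u = 3 → dist (e (g v)) (e (g u)) ^ 2 < 3072) := by
    intro v hv u hu hvu
    by_cases hv0 : v = w0
    · subst hv0
      have hu0 : u ≠ v := fun h => hvu h.symm
      have e1 : dist (e (g v)) (e (g u)) ^ 2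
          = 96 * (13 * τ ^ 2 - 2 * τ * (Q v u : ℝ) + 15) := by
        rw [hdist, hg0, hg1 u hu0, norm_smul, inner_smul_left, mul_pow, hnorm, hnorm, hin,
          hdiag0, hdiag u hu hu0, Real.norm_eq_abs, sq_abs]
        simp only [conj_trivial]
        push_cast
        ring
      constructor
      · intro hq
        rw [e1, hq]
        push_cast
        nlinarith [hτ]
      · intro hq
        rw [e1, hq]
        push_cast
        nlinarith [hτ, hτ0]
    · by_cases hu0 : u = w0
      · subst hu0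
        have e1 : dist (e (g v)) (e (g u)) ^ 2
            = 96 * (13 * τ ^ 2 - 2 * τ * (Q v u : ℝ) + 15) := by
          rw [hdist, hg0, hg1 v hv0, norm_smul, inner_smul_right, mul_pow, hnorm, hnorm, hin,
            hdiag0, hdiag v hv hv0, Real.norm_eq_abs, sq_abs]
          push_cast
          ring
        constructor
        · intro hq
          rw [e1, hq]
          push_cast
          nlinarith [hτ]
        · intro hq
          rw [e1, hq]
          push_cast
          nlinarith [hτ, hτ0]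
      · have e1 : dist (e (g v)) (e (g u)) ^ 2 = 2880 - 192 * (Q v u : ℝ) := by
          rw [hdist, hg1 v hv0, hg1 u hu0, hnorm, hnorm, hin, hdiag v hv hv0, hdiag u hu hu0]
          push_cast
          ring
        constructor
        · intro hq
          rw [e1, hq]
          norm_num
        · intro hq
          rw [e1, hq]
          norm_num
  have hres := no_cover_of_dist S (fun v => e (g v)) (fun v u => Q v u = 3) (Real.sqrt 3072)
    (Real.sqrt_pos.mpr (by norm_num)) 64 5 (by rw [hcard]; norm_num) (by rw [hcard]; norm_num)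
    ?_ ?_ hcl
  · exact ⟨_, hres⟩
  · intro v hv u hu
    by_cases hvu : v = u
    · subst hvu
      rw [dist_self]
      exact Real.sqrt_nonneg _
    · have h1 := hkey v hv u hu hvu
      have h2 : dist (e (g v)) (e (g u)) ^ 2 ≤ 3072 := by
        rcases hoff v hv u hu hvu with h | h
        · exact (h1.2 h).le
        · exact (h1.1 h).le
      rw [← Real.sqrt_sq (dist_nonneg (x := e (g v)) (y := e (g u)))]
      exact Real.sqrt_le_sqrt h2
  · intro v hv u hu hvu hR
    have h1 := hkey v hv u hu hvu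
    have h2 : Q v u = -1 := by
      rcases hoff v hv u hu hvu with h | h
      · exact absurd h hR
      · exact h
    rw [← Real.sqrt_sq (dist_nonneg (x := e (g v)) (y := e (g u))), h1.1 h2]

end Vale.Agent.Lib.P052
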