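import Mathlib

/-!
# The matrix `16 I + 4 A - J` of a strongly regular graph with parameters (416, 100, 36, 20)
-/

open Matrix

namespace Vale.Agent.Lib.P052

section srg

variable (adj : Fin 416 → Fin 416 → Prop) [DecidableRel adj]

/-- The matrix `16 I + 4 A - J` of a graph on 416 vertices: entries 15 on the diagonal, 3 on
edges, -1 on non-edges. -/
noncomputable def gramMat : Matrix (Fin 416) (Fin 416) ℝ :=
  fun i j => if i = j then 15 else if adj i j then 3 else -1

variable {adj}

theorem gramMat_symm (hsymm : ∀ i j, adj i j → adj j i) (i j : Fin 416) :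
    gramMat adj i j = gramMat adj j i := by
  unfold gramMat
  by_cases hij : i = j
  · subst hij; rfl
  · have hji : ¬ j = i := fun h => hij h.symm
    rw [if_neg hij, if_neg hji]
    by_cases h : adj i j
    · rw [if_pos h, if_pos (hsymm i j h)]
    · have h' : ¬ adj j i := fun h' => h (hsymm j i h')
      rw [if_neg h, if_neg h']

/-- For a strongly regular graph with parameters (416, 100, 36, 20) the matrix
`M = 16 I + 4 A - J` satisfies `M * M = 96 M`. -/
theorem gramMat_mul_self (hsymm : ∀ i j, adj i j → adj j i) (hirr : ∀ i, ¬ adj i i)
    (hsrg : ∀ i j, (Finset.univ.filter (fun k => adj i k ∧ adj k j)).card =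
      if i = j then 100 else if adj i j then 36 else 20) :
    gramMat adj * gramMat adj = (96 : ℝ) • gramMat adj := by
  classical
  -- indicator form of the entries
  set a : Fin 416 → Fin 416 → ℝ := fun i j => if adj i j then 1 else 0 with ha
  set e : Fin 416 → Fin 416 → ℝ := fun i j => if i = j then 1 else 0 with he
  have hM : ∀ i j, gramMat adj i j = 16 * e i j + 4 * a i j - 1 := by
    intro i j
    simp only [gramMat, ha, he]
    by_cases hij : i = j
    · subst hij
      simp [hirr i]
      norm_num
    · by_cases h : adj i j
      · simp [hij, h]; norm_num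
      · simp [hij, h]
  have haa : ∀ i j, ∑ k, a i k * a k j = if i = j then 100 else if adj i j then 36 else 20 := by
    intro i j
    have h1 : ∑ k, a i k * a k j = ((Finset.univ.filter (fun k => adj i k ∧ adj k j)).card : ℝ) := by
      rw [Finset.card_filter]
      push_cast
      apply Finset.sum_congr rfl
      intro k _
      simp only [ha]
      by_cases h1 : adj i k <;> by_cases h2 : adj k j <;> simp [h1, h2]
    rw [h1, hsrg i j]
    split_ifs <;> norm_num
  have hdeg : ∀ i, ∑ k, a i k = 100 := by
    intro i
    have h1 := haa i i
    rw [if_pos rfl] at h1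
    rw [← h1]
    apply Finset.sum_congr rfl
    intro k _
    simp only [ha]
    by_cases h : adj i k
    · simp [h, hsymm i k h]
    · simp [h]
  have hdeg' : ∀ j, ∑ k, a k j = 100 := by
    intro j
    rw [← hdeg j]
    apply Finset.sum_congr rfl
    intro k _
    simp only [ha]
    by_cases h : adj k j
    · simp [h, hsymm k j h]
    · have h' : ¬ adj j k := fun h' => h (hsymm j k h')
      simp [h, h']
  have hee : ∀ i j, ∑ k, e i k * e k j = e i j := by
    intro i j
    simp [he]
  have hea : ∀ i j, ∑ k, e i k * a k j = a i j := by
    intro i j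
    simp [he]
  have hae : ∀ i j, ∑ k, a i k * e k j = a i j := by
    intro i j
    simp [he]
  have he1 : ∀ i, ∑ k, e i k = 1 := by
    intro i
    simp [he]
  have he1' : ∀ j, ∑ k, e k j = 1 := by
    intro j
    simp [he]
  ext i j
  rw [Matrix.mul_apply, Matrix.smul_apply, smul_eq_mul]
  have hexp : ∀ k, gramMat adj i k * gramMat adj k j =
      256 * (e i k * e k j) + 64 * (e i k * a k j) - 16 * e i k + 64 * (a i k * e k j)
        + 16 * (a i k * a k j) - 4 * a i k - 16 * e k j - 4 * a k j + 1 := by
    intro k
    rw [hM i k, hM k j]
    ring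
  simp only [hexp]
  simp only [Finset.sum_add_distrib, Finset.sum_sub_distrib, ← Finset.mul_sum]
  rw [hee, hea, hae, haa, hdeg, hdeg', he1, he1', hM i j]
  simp only [Finset.sum_const, Finset.card_univ, Fintype.card_fin, nsmul_eq_mul]
  simp only [ha, he]
  by_cases hij : i = j
  · subst hij
    simp [hirr i]
    norm_num
  · by_cases h : adj i j
    · simp [hij, h]; norm_num
    · simp [hij, h]; norm_num

end srg

end Vale.Agent.Lib.P052
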