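import Vale.Agent.Lib.P052.Srg
import Vale.Agent.Lib.P052.Graph

/-!
# The graph `g24Rows` is strongly regular with parameters (416, 100, 36, 20) (P052)
-/

namespace Vale.Agent.Lib.P052

theorem g24_srgCheck : srgCheck g24Rows 416 100 36 20 = true := by decide +kernel

theorem g24_symm : ∀ i j, i < 416 → j < 416 → adjOf g24Rows i j = adjOf g24Rows j i :=
  (srgCheck_sound g24_srgCheck).1

theorem g24_irrefl : ∀ i, i < 416 → adjOf g24Rows i i = false :=
  (srgCheck_sound g24_srgCheck).2.1

theorem g24_count : ∀ i j, i < 416 → j < 416 →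
    ((Finset.range 416).filter
      (fun t => adjOf g24Rows i t = true ∧ adjOf g24Rows t j = true)).card =
      if i = j then 100 else if adjOf g24Rows i j = true then 36 else 20 :=
  (srgCheck_sound g24_srgCheck).2.2

end Vale.Agent.Lib.P052
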