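import Vale.Agent.Lib.P052.Srg
import Vale.Agent.Lib.P052.HermGraph
import Vale.Agent.Lib.P052.FromData

/-!
# Kernel-checked facts about the graph `hermRows` (P052)

* strong regularity with parameters (416, 100, 36, 20);
* the two hyperplane vectors `hermCa`, `hermCb` (differences of indicator functions of the three
  blocks `320..351`, `352..383`, `384..415`) are orthogonal, with respect to the integer Gram
  matrix `16 I + 4 A - J`, to every vertex `v < 320`;
* the independence certificate at the vertices `320` and `384`.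
-/

namespace Vale.Agent.Lib.P052

/-- Adjacency of the graph given by `hermRows`. -/
def hermAdj (v u : ℕ) : Bool := adjOf hermRows v u

theorem herm_srgCheck : srgCheck hermRows 416 100 36 20 = true := by decide +kernel

theorem herm_symm : ∀ i j, i < 416 → j < 416 → hermAdj i j = hermAdj j i :=
  (srgCheck_sound herm_srgCheck).1

theorem herm_irrefl : ∀ i, i < 416 → hermAdj i i = false :=
  (srgCheck_sound herm_srgCheck).2.1

theorem herm_srg : ∀ i j, i < 416 → j < 416 →
    ((Finset.range 416).filter (fun k => hermAdj i k = true ∧ hermAdj k j = true)).card =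
      if i = j then 100 else if hermAdj i j = true then 36 else 20 :=
  (srgCheck_sound herm_srgCheck).2.2

/-- The number of set bits of `r` among the positions `lo, ..., lo + n - 1`. -/
noncomputable def cntBits (r lo n : ℕ) : ℕ :=
  Nat.rec 0 (fun j ih => Nat.add ih (bitAt r (Nat.add lo j))) n

lemma cntBits_eq (r lo n : ℕ) : cntBits r lo n = ∑ j ∈ Finset.range n, bitAt r (lo + j) := by
  induction n with
  | zero => rfl
  | succ n ih =>
    rw [Finset.sum_range_succ, ← ih]
    rfl

/-- The row `r` has equally many set bits in the three blocks. -/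
noncomputable def blockOk (_t r : ℕ) : Bool :=
  and (Nat.beq (cntBits r 320 32) (cntBits r 352 32))
    (Nat.beq (cntBits r 352 32) (cntBits r 384 32))

theorem herm_blockCheck : allOk blockOk 320 (hermRows.take 320).reverse = true := by
  decide +kernel

theorem herm_length : hermRows.length = 416 := by decide +kernel

lemma herm_block_counts (v : ℕ) (hv : v < 320) :
    cntBits (hermRows.getD v 0) 320 32 = cntBits (hermRows.getD v 0) 352 32 ∧
    cntBits (hermRows.getD v 0) 352 32 = cntBits (hermRows.getD v 0) 384 32 := by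
  have h := allOk_sound blockOk hermRows 320 (by rw [herm_length]; norm_num) herm_blockCheck v hv
  unfold blockOk at h
  rw [Bool.and_eq_true] at h
  exact ⟨Nat.eq_of_beq_eq_true h.1, Nat.eq_of_beq_eq_true h.2⟩

/-- The first hyperplane vector: `1` on the block `320..351`, `-1` on the block `352..383`. -/
def hermCa (i : ℕ) : ℤ := if i < 320 then 0 else if i < 352 then 1 else if i < 384 then -1 else 0

/-- The second hyperplane vector: `1` on the block `352..383`, `-1` on the block `384..415`. -/
def hermCb (i : ℕ) : ℤ := if i < 352 then 0 else if i < 384 then 1 else if i < 416 then -1 else 0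

lemma mEntry_herm_of_ne (v i : ℕ) (h : v ≠ i) :
    mEntry hermAdj v i = 4 * (bitAt (hermRows.getD v 0) i : ℤ) - 1 := by
  unfold mEntry hermAdj adjOf
  rw [if_neg h, bitAt_eq]
  cases (hermRows.getD v 0).testBit i <;> simp

lemma sum_mEntry_block (v lo : ℕ) (hv : v < 320) (hlo : 320 ≤ lo) :
    ∑ j ∈ Finset.range 32, mEntry hermAdj v (lo + j)
      = 4 * (cntBits (hermRows.getD v 0) lo 32 : ℤ) - 32 := by
  rw [cntBits_eq]
  push_cast
  rw [Finset.mul_sum]
  have : ∀ j ∈ Finset.range 32, mEntry hermAdj v (lo + j)
      = 4 * (bitAt (hermRows.getD v 0) (lo + j) : ℤ) - 1 := by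
    intro j _
    exact mEntry_herm_of_ne v (lo + j) (by omega)
  rw [Finset.sum_congr rfl this, Finset.sum_sub_distrib]
  simp

theorem herm_hTa : ∀ v ∈ Finset.range 320,
    ∑ i ∈ Finset.range 416, mEntry hermAdj v i * hermCa i = 0 := by
  intro v hv
  have hv' := Finset.mem_range.mp hv
  obtain ⟨h1, -⟩ := herm_block_counts v hv'
  rw [show (416 : ℕ) = 320 + 32 + 32 + 32 from rfl, Finset.sum_range_add, Finset.sum_range_add,
    Finset.sum_range_add]
  have e0 : ∑ i ∈ Finset.range 320, mEntry hermAdj v i * hermCa i = 0 := by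
    refine Finset.sum_eq_zero (fun i hi => ?_)
    have := Finset.mem_range.mp hi
    simp [hermCa, this]
  have e1 : ∑ j ∈ Finset.range 32, mEntry hermAdj v (320 + j) * hermCa (320 + j)
      = ∑ j ∈ Finset.range 32, mEntry hermAdj v (320 + j) := by
    refine Finset.sum_congr rfl (fun j hj => ?_)
    have := Finset.mem_range.mp hj
    have h1 : ¬ (320 + j < 320) := by omega
    have h2 : 320 + j < 352 := by omega
    simp [hermCa, h1, h2]
  have e2 : ∑ j ∈ Finset.range 32, mEntry hermAdj v (320 + 32 + j) * hermCa (320 + 32 + j)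
      = - ∑ j ∈ Finset.range 32, mEntry hermAdj v (352 + j) := by
    rw [← Finset.sum_neg_distrib]
    refine Finset.sum_congr rfl (fun j hj => ?_)
    have := Finset.mem_range.mp hj
    have h1 : ¬ (320 + 32 + j < 320) := by omega
    have h2 : ¬ (320 + 32 + j < 352) := by omega
    have h3 : 320 + 32 + j < 384 := by omega
    simp [hermCa, h1, h2, h3]
  have e3 : ∑ j ∈ Finset.range 32,
      mEntry hermAdj v (320 + 32 + 32 + j) * hermCa (320 + 32 + 32 + j) = 0 := by
    refine Finset.sum_eq_zero (fun j hj => ?_)
    have h1 : ¬ (320 + 32 + 32 + j < 320) := by omega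
    have h2 : ¬ (320 + 32 + 32 + j < 352) := by omega
    have h3 : ¬ (320 + 32 + 32 + j < 384) := by omega
    simp [hermCa, h1, h2, h3]
  rw [e0, e1, e2, e3, sum_mEntry_block v 320 hv' le_rfl, sum_mEntry_block v 352 hv' (by norm_num),
    h1]
  ring

theorem herm_hTb : ∀ v ∈ Finset.range 320,
    ∑ i ∈ Finset.range 416, mEntry hermAdj v i * hermCb i = 0 := by
  intro v hv
  have hv' := Finset.mem_range.mp hv
  obtain ⟨-, h2⟩ := herm_block_counts v hv'
  rw [show (416 : ℕ) = 320 + 32 + 32 + 32 from rfl, Finset.sum_range_add, Finset.sum_range_add,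
    Finset.sum_range_add]
  have e0 : ∑ i ∈ Finset.range 320, mEntry hermAdj v i * hermCb i = 0 := by
    refine Finset.sum_eq_zero (fun i hi => ?_)
    have := Finset.mem_range.mp hi
    have h1 : i < 352 := by omega
    simp [hermCb, h1]
  have e1 : ∑ j ∈ Finset.range 32, mEntry hermAdj v (320 + j) * hermCb (320 + j) = 0 := by
    refine Finset.sum_eq_zero (fun j hj => ?_)
    have := Finset.mem_range.mp hj
    have h1 : 320 + j < 352 := by omega
    simp [hermCb, h1]
  have e2 : ∑ j ∈ Finset.range 32, mEntry hermAdj v (320 + 32 + j) * hermCb (320 + 32 + j)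
      = ∑ j ∈ Finset.range 32, mEntry hermAdj v (352 + j) := by
    refine Finset.sum_congr rfl (fun j hj => ?_)
    have := Finset.mem_range.mp hj
    have h2 : ¬ (320 + 32 + j < 352) := by omega
    have h3 : 320 + 32 + j < 384 := by omega
    simp [hermCb, h2, h3]
  have e3 : ∑ j ∈ Finset.range 32,
      mEntry hermAdj v (320 + 32 + 32 + j) * hermCb (320 + 32 + 32 + j)
      = - ∑ j ∈ Finset.range 32, mEntry hermAdj v (384 + j) := by
    rw [← Finset.sum_neg_distrib]
    refine Finset.sum_congr rfl (fun j hj => ?_)
    have := Finset.mem_range.mp hj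
    have h2 : ¬ (320 + 32 + 32 + j < 352) := by omega
    have h3 : ¬ (320 + 32 + 32 + j < 384) := by omega
    have h4 : 320 + 32 + 32 + j < 416 := by omega
    simp [hermCb, h2, h3, h4]
  rw [e0, e1, e2, e3, sum_mEntry_block v 352 hv' (by norm_num),
    sum_mEntry_block v 384 hv' (by norm_num), h2]
  ring

theorem herm_hdet :
    (∑ i ∈ Finset.range 416, mEntry hermAdj 320 i * hermCa i) *
        (∑ i ∈ Finset.range 416, mEntry hermAdj 384 i * hermCb i) -
      (∑ i ∈ Finset.range 416, mEntry hermAdj 384 i * hermCa i) *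
        (∑ i ∈ Finset.range 416, mEntry hermAdj 320 i * hermCb i) ≠ 0 := by
  decide +kernel

end Vale.Agent.Lib.P052
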