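import Mathlib
import Vale.Agent.Lib.P052.Pack
import Vale.Agent.Lib.P052.Twin

/-!
# Consequences of the kernel-evaluated checks: the matrix identities
-/

namespace Vale.Agent.Lib.P052

open Finset

theorem ndiv_eq (a b : ℕ) : Nat.div a b = a / b := rfl

theorem nmod_eq (a b : ℕ) : Nat.mod a b = a % b := rfl

theorem qt_def (v u : ℕ) : qt v u = col u / bB ^ v % bB := rfl

theorem bB_pos : 0 < bB := by decide

theorem colList_length : colList.length = 416 := by decide +kernel

theorem col_lt {u : ℕ} (hu : u < 416) : col u < bB ^ 416 := (col_bnd hu).1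

theorem ones_eq : onesLit = ∑ w ∈ range 416, bB ^ w := by
  have h : onesOK = true := onesOK_true
  unfold onesOK at h
  rw [Nat.beq_eq, sumTo_eq] at h
  simpa only [Nat.pow_eq] using h

theorem bB_eq : bB = 2 ^ 20 := by
  unfold bB
  norm_num

/-- Every base-`2^20` digit of `digMask` is `2^20 - 32`. -/
theorem digMask_digit {v : ℕ} (hv : v < 416) : digMask / bB ^ v % bB = 1048544 := by
  have h : digMask = ∑ w ∈ range 416, 1048544 * bB ^ w := by
    show 1048544 * onesLit = _
    rw [ones_eq, Finset.mul_sum]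
  rw [h]
  refine packed_digit bB (fun _ => 1048544) 416 (fun _ _ => ?_) v hv
  unfold bB
  norm_num

/-- A number without a common bit with `digMask` has all its first 416 digits below `32`. -/
theorem digit_lt {c v : ℕ} (h : c &&& digMask = 0) (hv : v < 416) : c / bB ^ v % bB < 32 := by
  by_contra hcon
  have hge : c / bB ^ v % bB ≥ 2 ^ 5 := by
    have e : (2 : ℕ) ^ 5 = 32 := by norm_num
    omega
  obtain ⟨i, hi5, hbit⟩ := Nat.exists_ge_and_testBit_of_ge_two_pow hge
  have hBv : bB ^ v = 2 ^ (20 * v) := by rw [bB_eq, ← pow_mul]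
  have hi20 : i < 20 := by
    by_contra hcon2
    have hlt : c / bB ^ v % bB < 2 ^ i :=
      lt_of_lt_of_le (Nat.mod_lt _ bB_pos)
        (by rw [bB_eq]; exact Nat.pow_le_pow_right (by norm_num) (by omega))
    rw [Nat.testBit_lt_two_pow hlt] at hbit
    exact Bool.noConfusion hbit
  have hc : c.testBit (i + 20 * v) = true := by
    rw [hBv, bB_eq, Nat.testBit_mod_two_pow, Nat.testBit_div_two_pow] at hbit
    simpa [hi20] using hbit
  have hm : digMask.testBit (i + 20 * v) = true := by
    have h2 : (digMask / bB ^ v % bB).testBit i = true := by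
      rw [digMask_digit hv]
      interval_cases i <;> rfl
    rw [hBv, bB_eq, Nat.testBit_mod_two_pow, Nat.testBit_div_two_pow] at h2
    simpa [hi20] using h2
  have h3 : (c &&& digMask).testBit (i + 20 * v) = true := by
    rw [Nat.testBit_and, hc, hm]
    rfl
  rw [h, Nat.zero_testBit] at h3
  exact Bool.noConfusion h3

theorem qt_le {v u : ℕ} (hv : v < 416) (hu : u < 416) : qt v u ≤ 31 := by
  have h := digit_lt (col_bnd hu).2 hv
  rw [qt_def]
  omega

theorem col_expand {u : ℕ} (hu : u < 416) : col u = ∑ w ∈ range 416, qt w u * bB ^ w := by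
  have h := digits_sum bB (col u) 416
  rw [Nat.mod_eq_of_lt (col_lt hu)] at h
  exact h.symm

theorem row_identity {v : ℕ} (hv : v < 416) :
    ∑ u ∈ range 416, qt v u * col u = 96 * col v + 32832 * onesLit := by
  have h := (allTo_iff rowOK 416).mp rowOK_true v hv
  unfold rowOK at h
  rw [Nat.beq_eq] at h
  simp only [Nat.pow_eq, Nat.add_eq, Nat.mul_eq] at h
  rw [rowAcc_eq, list_sum_getD, colList_length, zero_add] at h
  exact h

/-- The matrix identity `(Q+9)(Q+9)ᵀ = 96 (Q+9)ᵀ + 32832 J` over the naturals. -/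
theorem gram_nat {v w : ℕ} (hv : v < 416) (hw : w < 416) :
    ∑ u ∈ range 416, qt v u * qt w u = 96 * qt w v + 32832 := by
  have h := row_identity hv
  have e1 : ∑ u ∈ range 416, qt v u * col u
      = ∑ w ∈ range 416, (∑ u ∈ range 416, qt v u * qt w u) * bB ^ w := by
    rw [Finset.sum_congr rfl (fun u hu => by rw [col_expand (Finset.mem_range.mp hu)])]
    simp_rw [Finset.mul_sum, Finset.sum_mul]
    rw [Finset.sum_comm]
    refine Finset.sum_congr rfl (fun w _ => Finset.sum_congr rfl (fun u _ => ?_))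
    ring
  have e2 : 96 * col v + 32832 * onesLit
      = ∑ w ∈ range 416, (96 * qt w v + 32832) * bB ^ w := by
    rw [col_expand hv, ones_eq, Finset.mul_sum, Finset.mul_sum, ← Finset.sum_add_distrib]
    refine Finset.sum_congr rfl (fun w _ => ?_)
    ring
  rw [e1, e2] at h
  refine packed_inj bB _ _ 416 ?_ ?_ h w hw
  · intro i hi
    have : ∑ u ∈ range 416, qt v u * qt i u ≤ ∑ u ∈ range 416, 31 * 31 := by
      refine Finset.sum_le_sum (fun u hu => ?_)
      exact Nat.mul_le_mul (qt_le hv (Finset.mem_range.mp hu)) (qt_le hi (Finset.mem_range.mp hu))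
    have h3 : (∑ u ∈ range 416, 31 * 31) = 399776 := by simp
    have h4 : bB = 1048576 := rfl
    omega
  · intro i hi
    have := qt_le hi hv
    have h4 : bB = 1048576 := rfl
    omega

/-- Row sums of `Q + 9`. -/
theorem rowsum_nat {w : ℕ} (hw : w < 416) : ∑ u ∈ range 416, qt w u = 3744 := by
  have h : colSumOK = true := colSumOK_true
  unfold colSumOK at h
  rw [Nat.beq_eq, sumTo_eq] at h
  simp only [Nat.mul_eq] at h
  have e1 : ∑ u ∈ range 416, col u = ∑ w ∈ range 416, (∑ u ∈ range 416, qt w u) * bB ^ w := by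
    rw [Finset.sum_congr rfl (fun u hu => by rw [col_expand (Finset.mem_range.mp hu)])]
    simp_rw [Finset.sum_mul]
    rw [Finset.sum_comm]
  have e2 : 3744 * onesLit = ∑ w ∈ range 416, 3744 * bB ^ w := by
    rw [ones_eq, Finset.mul_sum]
  rw [e1, e2] at h
  refine packed_inj bB _ (fun _ => 3744) 416 ?_ ?_ h w hw
  · intro i hi
    have : ∑ u ∈ range 416, qt i u ≤ ∑ u ∈ range 416, 31 :=
      Finset.sum_le_sum (fun u hu => qt_le hi (Finset.mem_range.mp hu))
    have h3 : (∑ u ∈ range 416, 31) = 12896 := by simp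
    have h4 : bB = 1048576 := rfl
    omega
  · intro i _
    have h4 : bB = 1048576 := rfl
    omega

theorem trace_nat : ∑ v ∈ range 416, qt v v = 9792 := by
  have h : traceOK = true := traceOK_true
  unfold traceOK at h
  rw [Nat.beq_eq, sumTo_eq] at h
  exact h

/-- The integer matrix `Q`. -/
def qi (v u : ℕ) : ℤ := (qt v u : ℤ) - 9

theorem gram_int {v w : ℕ} (hv : v < 416) (hw : w < 416) :
    ∑ u ∈ range 416, qi v u * qi w u = 96 * qi w v := by
  have h1 : (∑ u ∈ range 416, (qt v u : ℤ) * (qt w u : ℤ)) = 96 * (qt w v : ℤ) + 32832 := by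
    exact_mod_cast gram_nat hv hw
  have h2 : (∑ u ∈ range 416, (qt v u : ℤ)) = 3744 := by exact_mod_cast rowsum_nat hv
  have h3 : (∑ u ∈ range 416, (qt w u : ℤ)) = 3744 := by exact_mod_cast rowsum_nat hw
  have e : ∀ u, qi v u * qi w u
      = (qt v u : ℤ) * (qt w u : ℤ) - 9 * (qt v u : ℤ) - 9 * (qt w u : ℤ) + 81 := by
    intro u; unfold qi; ring
  simp_rw [e]
  rw [Finset.sum_add_distrib, Finset.sum_sub_distrib, Finset.sum_sub_distrib, ← Finset.mul_sum,
    ← Finset.mul_sum, h1, h2, h3]
  simp [qi]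
  ring

theorem qi_symm {v w : ℕ} (hv : v < 416) (hw : w < 416) : qi v w = qi w v := by
  have h1 := gram_int hv hw
  have h2 := gram_int hw hv
  have h3 : ∑ u ∈ range 416, qi v u * qi w u = ∑ u ∈ range 416, qi w u * qi v u :=
    Finset.sum_congr rfl (fun u _ => mul_comm _ _)
  rw [h1, h2] at h3
  omega

theorem trace_int : ∑ v ∈ range 416, qi v v = 6048 := by
  have h : (∑ v ∈ range 416, (qt v v : ℤ)) = 9792 := by exact_mod_cast trace_nat
  unfold qi
  rw [Finset.sum_sub_distrib, h]
  simp

end Vale.Agent.Lib.P052
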