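import Mathlib
import Vale.Agent.Lib.P052.Sem
import Vale.Agent.Lib.P052.Clique
import Vale.Agent.Lib.P052.GeomQ

/-!
# Assembly: the 63-dimensional counterexample to Borsuk's conjecture
-/

namespace Vale.Agent.Lib.P052

open Finset

theorem borsuk_dim63 :
    ∃ Y : Set (EuclideanSpace ℝ (Fin 63)), Y.Finite ∧ 0 < Metric.diam Y ∧
      ¬ ∃ P : Fin 64 → Set (EuclideanSpace ℝ (Fin 63)),
        (⋃ i, P i) = Y ∧ ∀ i, Metric.diam (P i) < Metric.diam Y := by
  have hpos : 0 < 416 := by norm_num
  refine borsuk_of_matrix (n := 416) (fun v u => qi v u) ?_ ?_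
    (Finset.univ.filter (fun v : Fin 416 => inS v = true)) ⟨0, hpos⟩ ?_ ?_ ?_ ?_ ?_
  · intro v w
    rw [Fin.sum_univ_eq_sum_range (fun u => qi v u * qi w u) 416]
    exact gram_int v.2 w.2
  · rw [Fin.sum_univ_eq_sum_range (fun v => qi v v) 416]
    exact trace_int
  · rw [← count_spec, Finset.card_filter, Finset.card_filter,
      Fin.sum_univ_eq_sum_range (fun v => if inS v = true then 1 else 0) 416]
  · intro v hv hv0
    have hs : inS v = true := (Finset.mem_filter.mp hv).2
    have h0 : (v : ℕ) ≠ 0 := fun h => hv0 (Fin.ext h)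
    have h := diag_spec v.2 hs
    rw [if_neg h0] at h
    show qi v v = 15
    unfold qi
    rw [h]
    norm_num
  · have h := diag_spec hpos inS_zero
    rw [if_pos rfl] at h
    show qi 0 0 = 13
    unfold qi
    rw [h]
    norm_num
  · intro v hv u hu hvu
    have hsv : inS v = true := (Finset.mem_filter.mp hv).2
    have hsu : inS u = true := (Finset.mem_filter.mp hu).2
    have hne : (v : ℕ) ≠ (u : ℕ) := fun h => hvu (Fin.ext h)
    show qi v u = 3 ∨ qi v u = -1
    rcases Nat.lt_or_gt_of_ne hne with hlt | hlt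
    · rcases pair_spec hlt u.2 hsv hsu with h | h
      · right; unfold qi; rw [h]; norm_num
      · left; unfold qi; rw [h.1]; norm_num
    · rw [qi_symm v.2 u.2]
      rcases pair_spec hlt v.2 hsu hsv with h | h
      · right; unfold qi; rw [h]; norm_num
      · left; unfold qi; rw [h.1]; norm_num
  · intro s hs hclq
    have h := no_six_clique (s.map Fin.valEmbedding) ?_ ?_
    · rwa [Finset.card_map] at h
    · intro a ha
      rw [Finset.mem_map] at ha
      obtain ⟨v, hv, rfl⟩ := ha
      exact (Finset.mem_filter.mp (hs hv)).2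
    · intro a ha b hb hab
      rw [Finset.mem_map] at ha hb
      obtain ⟨v, hv, rfl⟩ := ha
      obtain ⟨u, hu, rfl⟩ := hb
      have hab' : (v : ℕ) < (u : ℕ) := hab
      have hvu : v ≠ u := fun h => by rw [h] at hab'; exact lt_irrefl _ hab'
      have hq : qi v u = 3 := hclq v hv u hu hvu
      have hsv : inS v = true := (Finset.mem_filter.mp (hs hv)).2
      have hsu : inS u = true := (Finset.mem_filter.mp (hs hu)).2
      rcases pair_spec hab' u.2 hsv hsu with h | h
      · unfold qi at hq
        rw [h] at hq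
        norm_num at hq
      · exact h.2

end Vale.Agent.Lib.P052
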