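import Vale.Agent.Lib.P052.Srg
import Vale.Agent.Lib.P052.FromData

/-!
# A kernel-friendly check of the codimension-two section data (P052)

The graph is given by bitmask rows as in `Srg.lean`.  Two coefficient vectors are given as lists
of natural numbers `ca`, `cb` (the matrix `16 I + 4 A - J` kills the all-ones vector, so a
constant can be added to make all coefficients nonnegative), the set `T` as a bitmask `tmask`.
`secCheck` is a Boolean test built from recursors and the binary operations on natural numbers
that the kernel evaluates natively; `secCheck_sound` says what a successful test proves, and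
`borsuk63_of_checks` feeds it to `borsuk63_of_data`.

For a vertex `v` with row `r` the test computes the natural number
`wsum = ∑ i, (if i = v then 16 else if v ~ i then 4 else 0) * c i` and compares it with the total
`∑ i, c i`; the difference of the two is the integer `∑ i, mEntry v i * c i`.
-/

namespace Vale.Agent.Lib.P052

/-- Integer coefficient function of a list of natural numbers. -/
def coefOf (c : List ℕ) (i : ℕ) : ℤ := ((c.getD i 0 : ℕ) : ℤ)

/-- The set of `v < n` whose bit in `tmask` is set. -/
def maskSet (n tmask : ℕ) : Finset ℕ := (Finset.range n).filter (fun v => tmask.testBit v = true)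

/-- `∑ i < n, (if i = v then 16 else if bit i of r then 4 else 0) * c i`, along the reversed
coefficient list. -/
noncomputable def wsum (n v r : ℕ) (crev : List ℕ) : ℕ :=
  lsum (fun i c => cond (Nat.beq i v) (Nat.mul 16 c)
    (cond (Nat.beq (bitAt r i) 1) (Nat.mul 4 c) 0)) n crev

/-- Sum of the entries along the reversed coefficient list. -/
noncomputable def tsum (n : ℕ) (crev : List ℕ) : ℕ := lsum (fun _ c => c) n crev

/-- Number of set bits among the first `n` bits of `x`. -/
noncomputable def bitCount (x n : ℕ) : ℕ := Nat.rec 0 (fun j ih => Nat.add ih (bitAt x j)) n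

lemma bitCount_eq (x n : ℕ) : bitCount x n = ∑ j ∈ Finset.range n, bitAt x j := by
  induction n with
  | zero => rfl
  | succ n ih =>
    rw [Finset.sum_range_succ, ← ih]
    rfl

lemma card_maskSet (n tmask : ℕ) : (maskSet n tmask).card = bitCount tmask n := by
  rw [bitCount_eq, maskSet, Finset.card_filter]
  refine Finset.sum_congr rfl (fun j _ => ?_)
  rw [bitAt_eq]
  cases tmask.testBit j <;> simp

lemma mem_maskSet (n tmask v : ℕ) : v ∈ maskSet n tmask ↔ v < n ∧ bitAt tmask v = 1 := by
  rw [maskSet, Finset.mem_filter, Finset.mem_range, bitAt_eq_one_iff]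

lemma wsum_sub_tsum (n v : ℕ) (rows c : List ℕ) (hn : n ≤ c.length) :
    ((wsum n v (rows.getD v 0) (c.take n).reverse : ℕ) : ℤ) -
      ((tsum n (c.take n).reverse : ℕ) : ℤ) =
      ∑ i ∈ Finset.range n, mEntry (adjOf rows) v i * coefOf c i := by
  unfold wsum tsum
  rw [lsum_eq _ c n hn, lsum_eq _ c n hn]
  push_cast
  rw [← Finset.sum_sub_distrib]
  refine Finset.sum_congr rfl (fun i _ => ?_)
  unfold mEntry coefOf adjOf
  by_cases hiv : i = v
  · subst hiv
    have hb : Nat.beq i i = true := Nat.beq_refl i
    rw [hb]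
    simp only [cond_true, if_true]
    show ((16 * c.getD i 0 : ℕ) : ℤ) - _ = _
    push_cast
    ring
  · have hb : Nat.beq i v = false := by
      cases hb : Nat.beq i v
      · rfl
      · exact absurd (Nat.eq_of_beq_eq_true hb) hiv
    rw [hb, if_neg (fun h => hiv h.symm)]
    simp only [cond_false]
    by_cases hbit : bitAt (rows.getD v 0) i = 1
    · have hb2 : Nat.beq (bitAt (rows.getD v 0) i) 1 = true := by rw [hbit]; rfl
      rw [hb2, if_pos ((bitAt_eq_one_iff _ _).mp hbit)]
      simp only [cond_true]
      show ((4 * c.getD i 0 : ℕ) : ℤ) - _ = _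
      push_cast
      ring
    · have hb2 : Nat.beq (bitAt (rows.getD v 0) i) 1 = false := by
        cases hb2 : Nat.beq (bitAt (rows.getD v 0) i) 1
        · rfl
        · exact absurd (Nat.eq_of_beq_eq_true hb2) hbit
      have hbit' : ¬ (rows.getD v 0).testBit i = true := fun h =>
        hbit ((bitAt_eq_one_iff _ _).mpr h)
      rw [hb2, if_neg hbit']
      simp only [cond_false]
      push_cast
      ring

/-- The Boolean test of the section data: lengths, totals `ta`, `tb` of the two coefficient
lists, at least `m` vertices in the mask, the vertex `w` outside the mask, the four weighted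
sums at `x`, `y`, and for every vertex of the mask the two weighted sums equal to the totals. -/
noncomputable def secCheck (rows ca cb : List ℕ) (n m tmask ta tb w x y gax gay gbx gby : ℕ) :
    Bool :=
  and (Nat.beq rows.length n) (and (Nat.beq ca.length n) (and (Nat.beq cb.length n)
  (and (Nat.beq (tsum n ca.reverse) ta) (and (Nat.beq (tsum n cb.reverse) tb)
  (and (Nat.ble m (bitCount tmask n))
  (and (Nat.blt w n) (and (Nat.beq (bitAt tmask w) 0)
  (and (Nat.blt x n) (and (Nat.blt y n)
  (and (Nat.beq (wsum n x (rows.getD x 0) ca.reverse) gax)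
  (and (Nat.beq (wsum n y (rows.getD y 0) ca.reverse) gay)
  (and (Nat.beq (wsum n x (rows.getD x 0) cb.reverse) gbx)
  (and (Nat.beq (wsum n y (rows.getD y 0) cb.reverse) gby)
  (allOk (fun v r => cond (Nat.beq (bitAt tmask v) 1)
      (and (Nat.beq (wsum n v r ca.reverse) ta) (Nat.beq (wsum n v r cb.reverse) tb)) true)
    n rows.reverse))))))))))))))

theorem secCheck_sound {rows ca cb : List ℕ} {n m tmask ta tb w x y gax gay gbx gby : ℕ}
    (h : secCheck rows ca cb n m tmask ta tb w x y gax gay gbx gby = true) :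
    (∀ v ∈ maskSet n tmask, v < n) ∧ m ≤ (maskSet n tmask).card ∧
    (∀ v ∈ maskSet n tmask,
      ∑ i ∈ Finset.range n, mEntry (adjOf rows) v i * coefOf ca i = 0) ∧
    (∀ v ∈ maskSet n tmask,
      ∑ i ∈ Finset.range n, mEntry (adjOf rows) v i * coefOf cb i = 0) ∧
    w < n ∧ w ∉ maskSet n tmask ∧ x < n ∧ y < n ∧
    (∑ i ∈ Finset.range n, mEntry (adjOf rows) x i * coefOf ca i = (gax : ℤ) - ta) ∧
    (∑ i ∈ Finset.range n, mEntry (adjOf rows) y i * coefOf ca i = (gay : ℤ) - ta) ∧
    (∑ i ∈ Finset.range n, mEntry (adjOf rows) x i * coefOf cb i = (gbx : ℤ) - tb) ∧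
    (∑ i ∈ Finset.range n, mEntry (adjOf rows) y i * coefOf cb i = (gby : ℤ) - tb) := by
  unfold secCheck at h
  simp only [Bool.and_eq_true] at h
  obtain ⟨h1, h2, h3, h4, h5, h6, h7, h8, h9, h10, h11, h12, h13, h14, h15⟩ := h
  have hrows : rows.length = n := Nat.eq_of_beq_eq_true h1
  have hca : ca.length = n := Nat.eq_of_beq_eq_true h2
  have hcb : cb.length = n := Nat.eq_of_beq_eq_true h3
  have hta := Nat.eq_of_beq_eq_true h4
  have htb := Nat.eq_of_beq_eq_true h5
  have hm : m ≤ bitCount tmask n := Nat.le_of_ble_eq_true h6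
  have hw : w < n := by simpa [Nat.blt_eq] using h7
  have hwbit : bitAt tmask w = 0 := Nat.eq_of_beq_eq_true h8
  have hx : x < n := by simpa [Nat.blt_eq] using h9
  have hy : y < n := by simpa [Nat.blt_eq] using h10
  have hgax := Nat.eq_of_beq_eq_true h11
  have hgay := Nat.eq_of_beq_eq_true h12
  have hgbx := Nat.eq_of_beq_eq_true h13
  have hgby := Nat.eq_of_beq_eq_true h14
  have hcar : ca.reverse = (ca.take n).reverse := by rw [← hca, List.take_length]
  have hcbr : cb.reverse = (cb.take n).reverse := by rw [← hcb, List.take_length]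
  have hrr : rows.reverse = (rows.take n).reverse := by rw [← hrows, List.take_length]
  rw [hcar] at hta hgax hgay h15
  rw [hcbr] at htb hgbx hgby h15
  rw [hrr] at h15
  have key := allOk_sound _ rows n (le_of_eq hrows.symm) h15
  have ea := fun v => wsum_sub_tsum n v rows ca (le_of_eq hca.symm)
  have eb := fun v => wsum_sub_tsum n v rows cb (le_of_eq hcb.symm)
  rw [hta] at ea
  rw [htb] at eb
  refine ⟨?_, ?_, ?_, ?_, hw, ?_, hx, hy, ?_, ?_, ?_, ?_⟩
  · intro v hv
    exact ((mem_maskSet n tmask v).mp hv).1
  · rw [card_maskSet]; exact hm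
  · intro v hv
    obtain ⟨hvn, hvbit⟩ := (mem_maskSet n tmask v).mp hv
    have hk := key v hvn
    have hb : Nat.beq (bitAt tmask v) 1 = true := by rw [hvbit]; rfl
    rw [hb] at hk
    simp only [cond_true, Bool.and_eq_true] at hk
    rw [← ea v, Nat.eq_of_beq_eq_true hk.1, sub_self]
  · intro v hv
    obtain ⟨hvn, hvbit⟩ := (mem_maskSet n tmask v).mp hv
    have hk := key v hvn
    have hb : Nat.beq (bitAt tmask v) 1 = true := by rw [hvbit]; rfl
    rw [hb] at hk
    simp only [cond_true, Bool.and_eq_true] at hk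
    rw [← eb v, Nat.eq_of_beq_eq_true hk.2, sub_self]
  · intro hmem
    have := ((mem_maskSet n tmask w).mp hmem).2
    omega
  · rw [← ea x, hgax]
  · rw [← ea y, hgay]
  · rw [← eb x, hgbx]
  · rw [← eb y, hgby]

/-- The dimension 63 construction from kernel-evaluated checks: the strong regularity test of
`Srg.lean`, the absence of 6-cliques, the section test, and a numerical 2 x 2 determinant. -/
theorem borsuk63_of_checks (rows : List ℕ) (hsrg : srgCheck rows 416 100 36 20 = true)
    (hno6 : ∀ S : Finset ℕ, (∀ i ∈ S, i < 416) →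
      (∀ i ∈ S, ∀ j ∈ S, i ≠ j → adjOf rows i j = true) → S.card ≤ 5)
    (ca cb : List ℕ) (tmask ta tb w x y gax gay gbx gby : ℕ)
    (hsec : secCheck rows ca cb 416 320 tmask ta tb w x y gax gay gbx gby = true)
    (hdet : ((gax : ℤ) - ta) * ((gby : ℤ) - tb) - ((gay : ℤ) - ta) * ((gbx : ℤ) - tb) ≠ 0) :
    ∃ Y : Set (EuclideanSpace ℝ (Fin 63)), Y.Finite ∧ 0 < Metric.diam Y ∧
      ∀ P : Fin 64 → Set (EuclideanSpace ℝ (Fin 63)), (⋃ i, P i) = Y →
        ∃ i, Metric.diam Y ≤ Metric.diam (P i) := by
  obtain ⟨hsymm, hirr, hcount⟩ := srgCheck_sound hsrg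
  obtain ⟨hT416, hT, hTa, hTb, hw416, hw, hx, hy, eax, eay, ebx, eby⟩ := secCheck_sound hsec
  refine borsuk63_of_data (adjOf rows) hsymm hirr hcount hno6 (coefOf ca) (coefOf cb)
    (maskSet 416 tmask) hT416 hT hTa hTb w hw416 hw x y hx hy ?_
  rw [eax, eay, ebx, eby]
  exact hdet

end Vale.Agent.Lib.P052
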